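import Vale.Agent.P273.H375.Den
import Vale.Agent.P273.H95.Wall

/-!
The regions at the theta point (H95/Wall): the domain is open, its generic part is open and dense.
-/

noncomputable section

namespace Vale.Agent.P273.H375

open Set Filter H95
open scoped Topology ContDiff

/-! ### The coefficients of the theta sextic -/

section Coef

open Polynomial

/-- The monic sextic as a polynomial. -/
def PA (a : H681.C6) : ℂ[X] := X ^ 6 + ∑ i : Fin 6, C (a i) * X ^ (i : ℕ)

theorem eval_PA (a : H681.C6) (x : ℂ) : (PA a).eval x = sx a x := by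
  simp [PA, sx, eval_finsetSum]

theorem eval_PA1 (a : H681.C6) (x : ℂ) : (derivative (PA a)).eval x = sx1 a x := by
  simp only [PA, sx1, Fin.sum_univ_six, derivative_add, derivative_X_pow, derivative_C_mul_X_pow,
    eval_add, eval_mul, eval_C, eval_pow, eval_X]
  norm_num [Fin.val_zero, Fin.val_one]
  ring

theorem eval_PA2 (a : H681.C6) (x : ℂ) :
    (derivative (derivative (PA a))).eval x = sx2 a x := by
  simp only [PA, sx2, Fin.sum_univ_six, derivative_add, derivative_X_pow,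
    derivative_C_mul, eval_add, eval_mul, eval_C, eval_pow, eval_X]
  norm_num [Fin.val_zero, Fin.val_one]
  ring

/-- The quadratic factor. -/
def qd (ε : Fin 3 → ℂ) (k : Fin 3) : ℂ[X] := (X - C (ctr k)) ^ 2 - C (ε k)

theorem qd_monic (ε : Fin 3 → ℂ) (k : Fin 3) : (qd ε k).Monic ∧ (qd ε k).natDegree = 2 := by
  have h : qd ε k = X ^ 2 + C (-2 * ctr k) * X + C (ctr k ^ 2 - ε k) := by
    simp only [qd, C_mul, C_sub, C_pow, C_neg, C_ofNat]
    ring
  rw [h]
  constructor
  · monicity!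
  · compute_degree!

theorem PA_thA (ε : Fin 3 → ℂ) : PA (thA ε) = ∏ k, qd ε k := by
  have hm : (∏ k, qd ε k).Monic := monic_prod_of_monic _ _ fun k _ => (qd_monic ε k).1
  have hd : (∏ k, qd ε k).natDegree = 6 := by
    rw [natDegree_prod_of_monic _ _ fun k _ => (qd_monic ε k).1]
    simp [(qd_monic ε _).2]
  have h1 := (∏ k, qd ε k).as_sum_range_C_mul_X_pow
  rw [hd] at h1
  have h6 : (∏ k, qd ε k).coeff 6 = 1 := by
    have := hm.coeff_natDegree
    rwa [hd] at this
  rw [Finset.sum_range_succ, h6, Finset.sum_range] at h1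
  rw [h1, PA, add_comm]
  simp [thA, qd]

theorem sx_thA (ε : Fin 3 → ℂ) (x : ℂ) : sx (thA ε) x = ∏ k, ((x - ctr k) ^ 2 - ε k) := by
  rw [← eval_PA, PA_thA, eval_prod]
  simp [qd]

theorem sw_eq (a : H681.C6) {w : ℂ} (hw : w ≠ 0) : sw a w = w ^ 6 * sx a w⁻¹ := by
  simp only [sw, sx, Fin.sum_univ_six]
  norm_num [Fin.val_zero, Fin.val_one]
  field_simp

theorem sw_thA (ε : Fin 3 → ℂ) (w : ℂ) :
    sw (thA ε) w = ∏ k, ((1 - ctr k * w) ^ 2 - ε k * w ^ 2) := by
  have key : ∀ w : ℂ, w ≠ 0 → sw (thA ε) w = ∏ k, ((1 - ctr k * w) ^ 2 - ε k * w ^ 2) := by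
    intro w hw
    rw [sw_eq _ hw, sx_thA]
    have : w ^ 6 = ∏ _k : Fin 3, w ^ 2 := by simp; ring
    rw [this, ← Finset.prod_mul_distrib]
    refine Finset.prod_congr rfl fun k _ => ?_
    field_simp
  by_cases hw : w = 0
  · subst hw
    simp [sw, Fin.sum_univ_six]
  · exact key w hw

theorem ctr_inj : Function.Injective ctr := by
  intro k l h
  have h1 : ((k : ℕ) : ℂ) = ((l : ℕ) : ℂ) := by
    have h2 : (2 : ℂ) * (k : ℕ) + 3 / 2 = 2 * (l : ℕ) + 3 / 2 := h
    linear_combination h2 / 2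
  exact Fin.ext (by exact_mod_cast h1)

theorem two_le_ctr {k l : Fin 3} (h : k ≠ l) : 2 ≤ ‖ctr k - ctr l‖ := by
  have h1 : ctr k - ctr l = ((2 * (((k : ℕ) : ℤ) - ((l : ℕ) : ℤ)) : ℤ) : ℂ) := by
    simp only [ctr]
    push_cast
    ring
  rw [h1, Complex.norm_intCast]
  have h2 : ((k : ℕ) : ℤ) - ((l : ℕ) : ℤ) ≠ 0 := by
    intro h3
    apply h
    apply Fin.ext
    omega
  have h3 : (1 : ℤ) ≤ |((k : ℕ) : ℤ) - ((l : ℕ) : ℤ)| := Int.one_le_abs h2
  have h4 : (1 : ℝ) ≤ |((((k : ℕ) : ℤ) - ((l : ℕ) : ℤ) : ℤ) : ℝ)| := by exact_mod_cast h3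
  push_cast at h4 ⊢
  rw [abs_mul]
  simp only [abs_two]
  linarith

/-- A point near one centre is far from the others. -/
theorem far_ctr {k l : Fin 3} (h : k ≠ l) {x : ℂ} (hx : ‖x - ctr k‖ < 1 / 8) :
    15 / 8 < ‖x - ctr l‖ := by
  have h1 := two_le_ctr h
  have h2 : ctr k - ctr l = (x - ctr l) - (x - ctr k) := by ring
  rw [h2] at h1
  have h3 := norm_sub_le (x - ctr l) (x - ctr k)
  linarith

theorem eval_qd (ε : Fin 3 → ℂ) (k : Fin 3) (x : ℂ) :
    (qd ε k).eval x = (x - ctr k) ^ 2 - ε k := by simp [qd]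

theorem eval_qd1 (ε : Fin 3 → ℂ) (k : Fin 3) (x : ℂ) :
    (derivative (qd ε k)).eval x = 2 * (x - ctr k) := by
  simp [qd, derivative_pow]

theorem eval_qd2 (ε : Fin 3 → ℂ) (k : Fin 3) (x : ℂ) :
    (derivative (derivative (qd ε k))).eval x = 2 := by
  simp [qd, derivative_pow]

/-- Two factors have no common root. -/
theorem qd_ne {ε : Fin 3 → ℂ} (hε : ∀ k, ‖ε k‖ < 1 / 4096) {k l : Fin 3} (h : k ≠ l) {x : ℂ}
    (hk : (x - ctr k) ^ 2 - ε k = 0) : (x - ctr l) ^ 2 - ε l ≠ 0 := by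
  have h1 : ‖x - ctr k‖ ^ 2 < 1 / 4096 := by
    rw [← norm_pow, sub_eq_zero.1 hk]; exact hε k
  have h2 : ‖x - ctr k‖ < 1 / 8 := by nlinarith [norm_nonneg (x - ctr k)]
  have h3 := far_ctr h h2
  intro h4
  have h5 : ‖x - ctr l‖ ^ 2 < 1 / 4096 := by
    rw [← norm_pow, sub_eq_zero.1 h4]; exact hε l
  nlinarith [norm_nonneg (x - ctr l)]

/-- **The theta sextic with small `ε` has no triple root.** -/
theorem thA_mem_K6 {ε : Fin 3 → ℂ} (hε : ∀ k, ‖ε k‖ < 1 / 4096) : thA ε ∈ K6 := by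
  rintro x ⟨h0, h1, h2⟩
  rw [← eval_PA, PA_thA] at h0
  rw [← eval_PA1, PA_thA] at h1
  rw [← eval_PA2, PA_thA] at h2
  rw [eval_prod] at h0
  obtain ⟨k, -, hk⟩ := Finset.prod_eq_zero_iff.1 h0
  set g : ℂ[X] := ∏ l ∈ Finset.univ.erase k, qd ε l with hg
  have he : ∏ l, qd ε l = qd ε k * g := (Finset.mul_prod_erase _ _ (Finset.mem_univ k)).symm
  have hg0 : g.eval x ≠ 0 := by
    rw [hg, eval_prod]
    refine Finset.prod_ne_zero_iff.2 fun l hl => ?_
    rw [eval_qd]
    exact qd_ne hε (Finset.ne_of_mem_erase hl).symm (by rwa [eval_qd] at hk)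
  rw [he, derivative_mul, eval_add, eval_mul, eval_mul, hk, zero_mul, add_zero] at h1
  have h3 : (derivative (qd ε k)).eval x = 0 := (mul_eq_zero.1 h1).resolve_right hg0
  rw [he, derivative_mul, derivative_add, derivative_mul, derivative_mul] at h2
  simp only [eval_add, eval_mul, hk, h3, eval_qd2, zero_mul, add_zero] at h2
  exact (mul_ne_zero two_ne_zero hg0) h2

/-- The resultant condition holds for small `ε`. -/
theorem res_ne {ε : Fin 3 → ℂ} (hε : ∀ k, ‖ε k‖ < 1 / 4096) {k l : Fin 3} (h : k ≠ l) :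
    ((ctr k - ctr l) ^ 2 + ε k - ε l) ^ 2 ≠ 4 * (ctr k - ctr l) ^ 2 * ε k := by
  intro he
  obtain ⟨w, hw⟩ := IsAlgClosed.exists_pow_nat_eq (ε k) two_pos
  have h1 : ((ctr k - ctr l) ^ 2 + ε k - ε l - 2 * (ctr k - ctr l) * w) *
      ((ctr k - ctr l) ^ 2 + ε k - ε l + 2 * (ctr k - ctr l) * w) = 0 := by
    linear_combination he - 4 * (ctr k - ctr l) ^ 2 * hw
  rcases mul_eq_zero.1 h1 with h2 | h2
  · refine qd_ne hε h (x := ctr k - w) ?_ ?_
    · linear_combination hw
    · linear_combination h2 + hw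
  · refine qd_ne hε h (x := ctr k + w) ?_ ?_
    · linear_combination hw
    · linear_combination h2 + hw

/-- The theta sextic with small nonzero `ε` is separable. -/
theorem separable_thA {ε : Fin 3 → ℂ} (hε : ∀ k, ‖ε k‖ < 1 / 4096) (h0 : ∀ k, ε k ≠ 0) :
    (PA (thA ε)).Separable := by
  rw [PA_thA]
  exact separable_sextP (e := ctr) h0 fun k l h => res_ne hε h

/-- The theta sextic with small nonzero `ε` has no double root. -/
theorem sx1_ne {ε : Fin 3 → ℂ} (hε : ∀ k, ‖ε k‖ < 1 / 4096) (h0 : ∀ k, ε k ≠ 0) {x : ℂ}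
    (hx : sx (thA ε) x = 0) : sx1 (thA ε) x ≠ 0 := by
  have h1 := separable_thA hε h0
  rw [Polynomial.separable_def] at h1
  obtain ⟨u, v, h2⟩ := h1
  intro h3
  have h4 := congrArg (Polynomial.eval x) h2
  rw [eval_add, eval_mul, eval_mul, eval_PA, eval_PA1, hx, h3] at h4
  simp at h4

end Coef

/-! ### The coordinates of a region -/

section Reg

variable (R : Region)

theorem pos_neck {j : L} {k : Fin 3} (h : R.pl j = Sum.inl k) (p : R.Sp) :
    R.pos p j = ctr k + (R.XX p k (R.rk j) + R.YY p k (R.rk j)) / 2 := by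
  unfold Region.pos
  split
  · rename_i k' h'
    rw [h] at h'
    obtain rfl := Sum.inl.inj h'
    rfl
  · rename_i s h'
    rw [h] at h'
    cases h'

theorem pos_core {j : L} {s : Bool} (h : R.pl j = Sum.inr s) (p : R.Sp) :
    R.pos p j = p.2 ⟨j, by simp [h]⟩ := by
  unfold Region.pos
  split
  · rename_i k' h'
    rw [h] at h'
    cases h'
  · rfl

theorem sht_neck (S : L → Bool) {j : L} {k : Fin 3} (h : R.pl j = Sum.inl k) (p : R.Sp) :
    R.sht S p j = gk (R.eps p) k (R.pos p j) * (R.XX p k (R.rk j) - R.YY p k (R.rk j)) / 2 := by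
  unfold Region.sht
  rw [h]

theorem sht_core (S : L → Bool) {j : L} {s : Bool} (h : R.pl j = Sum.inr s) (p : R.Sp) :
    R.sht S p j = (if s then -1 else 1) *
      (if S j then gcw (R.eps p) (R.pos p j) else gc (R.eps p) (R.pos p j)) := by
  unfold Region.sht
  rw [h]

theorem XX_mul_YY (p : R.Sp) (k : Fin 3) (i : ℕ) : R.XX p k i * R.YY p k i = R.eps p k := by
  simp only [Region.XX, Region.YY, Region.eps, ← Finset.prod_mul_distrib]
  refine Finset.prod_congr rfl fun g _ => ?_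
  by_cases h : (g : ℕ) ≤ i
  · rw [if_pos h, if_neg (by omega), mul_one]
  · rw [if_neg h, if_pos (by omega), one_mul]

theorem an_gap (g : R.Gap) (p : R.Sp) : AnalyticAt ℂ (fun p : R.Sp => p.1 g) p :=
  ((ContinuousLinearMap.proj g : (R.Gap → ℂ) →L[ℂ] ℂ).analyticAt _).comp analyticAt_fst

theorem an_core (c : R.Cm) (p : R.Sp) : AnalyticAt ℂ (fun p : R.Sp => p.2 c) p :=
  ((ContinuousLinearMap.proj c : (R.Cm → ℂ) →L[ℂ] ℂ).analyticAt _).comp analyticAt_snd

theorem an_XX (k : Fin 3) (i : ℕ) (p : R.Sp) : AnalyticAt ℂ (fun p : R.Sp => R.XX p k i) p := by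
  unfold Region.XX
  refine Finset.analyticAt_fun_prod _ fun g _ => ?_
  split_ifs
  · exact an_gap R _ p
  · exact analyticAt_const

theorem an_YY (k : Fin 3) (i : ℕ) (p : R.Sp) : AnalyticAt ℂ (fun p : R.Sp => R.YY p k i) p := by
  unfold Region.YY
  refine Finset.analyticAt_fun_prod _ fun g _ => ?_
  split_ifs
  · exact an_gap R _ p
  · exact analyticAt_const

theorem an_eps (k : Fin 3) (p : R.Sp) : AnalyticAt ℂ (fun p : R.Sp => R.eps p k) p := by
  unfold Region.eps
  exact Finset.analyticAt_fun_prod _ fun g _ => an_gap R _ p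

theorem an_pos (j : L) (p : R.Sp) : AnalyticAt ℂ (fun p : R.Sp => R.pos p j) p := by
  rcases h : R.pl j with k | s
  · have e : (fun p : R.Sp => R.pos p j) =
        fun p => ctr k + (R.XX p k (R.rk j) + R.YY p k (R.rk j)) / 2 :=
      funext fun p => pos_neck R h p
    rw [e]
    exact analyticAt_const.add (((an_XX R k _ p).add (an_YY R k _ p)).div analyticAt_const two_ne_zero)
  · have e : (fun p : R.Sp => R.pos p j) = fun p => p.2 ⟨j, by simp [h]⟩ :=
      funext fun p => pos_core R h p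
    rw [e]
    exact an_core R _ p

/-! ### The basic open set -/

theorem csq_sq (z : ℂ) : csq z ^ 2 = z := by
  have h := Complex.cpow_nat_inv_pow z (two_ne_zero)
  rw [csq, one_div]
  exact_mod_cast h

theorem csq_ne {z : ℂ} (h : z ≠ 0) : csq z ≠ 0 := by
  intro h1
  apply h
  rw [← csq_sq z, h1]
  norm_num

theorem slit {u : ℂ} (h : ‖u‖ < 1 / 4) : 1 - u ∈ Complex.slitPlane := by
  left
  have h1 := Complex.re_le_norm u
  simp only [Complex.sub_re, Complex.one_re]
  linarith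

theorem an_csq {z : ℂ} (h : z ∈ Complex.slitPlane) : AnalyticAt ℂ csq z :=
  analyticAt_id.cpow analyticAt_const h

/-- The first three conditions of `dom`. -/
def D1 (S : L → Bool) : Set R.Sp := {p |
  (∀ k, ‖R.eps p k‖ < 1 / 4096) ∧
  (∀ j k, R.pl j = Sum.inl k → ‖R.XX p k (R.rk j)‖ < 1 / 8 ∧ ‖R.YY p k (R.rk j)‖ < 1 / 8) ∧
  ∀ (j : L) (s : Bool), R.pl j = Sum.inr s → ∀ l,
    if S j then ‖R.eps p l * R.pos p j ^ 2‖ < ‖1 - ctr l * R.pos p j‖ ^ 2 / 4
    else ‖R.eps p l‖ < ‖R.pos p j - ctr l‖ ^ 2 / 4}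

theorem dom_subset (S : L → Bool) : R.dom S ⊆ D1 R S := fun _ h => ⟨h.1, h.2.1, h.2.2.1⟩

theorem cont_eps (k : Fin 3) : Continuous fun p : R.Sp => R.eps p k :=
  continuous_iff_continuousAt.2 fun p => (an_eps R k p).continuousAt

theorem cont_XX (k : Fin 3) (i : ℕ) : Continuous fun p : R.Sp => R.XX p k i :=
  continuous_iff_continuousAt.2 fun p => (an_XX R k i p).continuousAt

theorem cont_YY (k : Fin 3) (i : ℕ) : Continuous fun p : R.Sp => R.YY p k i :=
  continuous_iff_continuousAt.2 fun p => (an_YY R k i p).continuousAt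

theorem cont_pos (j : L) : Continuous fun p : R.Sp => R.pos p j :=
  continuous_iff_continuousAt.2 fun p => (an_pos R j p).continuousAt

theorem isOpen_D1 (S : L → Bool) : IsOpen (D1 R S) := by
  have h1 : IsOpen {p : R.Sp | ∀ k, ‖R.eps p k‖ < 1 / 4096} := by
    rw [ofPred_forall]
    exact isOpen_iInter_of_finite fun k => isOpen_lt (cont_eps R k).norm continuous_const
  have h2 : IsOpen {p : R.Sp | ∀ j k, R.pl j = Sum.inl k →
      ‖R.XX p k (R.rk j)‖ < 1 / 8 ∧ ‖R.YY p k (R.rk j)‖ < 1 / 8} := by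
    simp only [ofPred_forall]
    exact isOpen_iInter_of_finite fun j => isOpen_iInter_of_finite fun k =>
      isOpen_iInter_of_finite fun _ => (isOpen_lt (cont_XX R k _).norm continuous_const).inter
        (isOpen_lt (cont_YY R k _).norm continuous_const)
  have h3 : IsOpen {p : R.Sp | ∀ (j : L) (s : Bool), R.pl j = Sum.inr s → ∀ l,
      if S j then ‖R.eps p l * R.pos p j ^ 2‖ < ‖1 - ctr l * R.pos p j‖ ^ 2 / 4
      else ‖R.eps p l‖ < ‖R.pos p j - ctr l‖ ^ 2 / 4} := by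
    simp only [ofPred_forall]
    refine isOpen_iInter_of_finite fun j => isOpen_iInter_of_finite fun s =>
      isOpen_iInter_of_finite fun _ => isOpen_iInter_of_finite fun l => ?_
    split_ifs
    · exact isOpen_lt ((cont_eps R l).mul ((cont_pos R j).pow 2)).norm
        (((continuous_const.sub (continuous_const.mul (cont_pos R j))).norm.pow 2).div_const 4)
    · exact isOpen_lt (cont_eps R l).norm
        ((((cont_pos R j).sub continuous_const).norm.pow 2).div_const 4)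
  exact h1.inter (h2.inter h3)

/-- On `D1` the neck marks are near their centre. -/
theorem pos_near {S : L → Bool} {p : R.Sp} (hp : p ∈ D1 R S) {j : L} {k : Fin 3}
    (h : R.pl j = Sum.inl k) : ‖R.pos p j - ctr k‖ < 1 / 8 := by
  obtain ⟨h1, h2⟩ := hp.2.1 j k h
  rw [pos_neck R h, add_sub_cancel_left, norm_div, Complex.norm_two]
  have := norm_add_le (R.XX p k (R.rk j)) (R.YY p k (R.rk j))
  linarith

theorem u_neck {S : L → Bool} {p : R.Sp} (hp : p ∈ D1 R S) {j : L} {k l : Fin 3}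
    (h : R.pl j = Sum.inl k) (hl : l ≠ k) :
    R.pos p j - ctr l ≠ 0 ∧ ‖R.eps p l / (R.pos p j - ctr l) ^ 2‖ < 1 / 4 := by
  have h1 := far_ctr hl.symm (pos_near R hp h)
  have h2 : R.pos p j - ctr l ≠ 0 := norm_pos_iff.1 (by linarith)
  refine ⟨h2, ?_⟩
  rw [norm_div, norm_pow, div_lt_iff₀ (by positivity)]
  have h3 := hp.1 l
  nlinarith

theorem u_core {S : L → Bool} {p : R.Sp} (hp : p ∈ D1 R S) {j : L} {s : Bool}
    (h : R.pl j = Sum.inr s) (hS : S j = false) (l : Fin 3) :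
    R.pos p j - ctr l ≠ 0 ∧ ‖R.eps p l / (R.pos p j - ctr l) ^ 2‖ < 1 / 4 := by
  have h1 := hp.2.2 j s h l
  rw [hS, if_neg Bool.false_ne_true] at h1
  have h2 : 0 < ‖R.pos p j - ctr l‖ := by
    by_contra hc
    have h3 : ‖R.pos p j - ctr l‖ = 0 := le_antisymm (not_lt.1 hc) (norm_nonneg _)
    rw [h3] at h1
    have := norm_nonneg (R.eps p l)
    norm_num at h1
    linarith
  refine ⟨norm_pos_iff.1 h2, ?_⟩
  rw [norm_div, norm_pow, div_lt_iff₀ (by positivity)]
  linarith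

theorem u_far {S : L → Bool} {p : R.Sp} (hp : p ∈ D1 R S) {j : L} {s : Bool}
    (h : R.pl j = Sum.inr s) (hS : S j = true) (l : Fin 3) :
    1 - ctr l * R.pos p j ≠ 0 ∧
      ‖R.eps p l * R.pos p j ^ 2 / (1 - ctr l * R.pos p j) ^ 2‖ < 1 / 4 := by
  have h1 := hp.2.2 j s h l
  rw [hS, if_pos rfl] at h1
  have h2 : 0 < ‖1 - ctr l * R.pos p j‖ := by
    by_contra hc
    have h3 : ‖1 - ctr l * R.pos p j‖ = 0 := le_antisymm (not_lt.1 hc) (norm_nonneg _)
    rw [h3] at h1
    have h4 := norm_nonneg (R.eps p l * R.pos p j ^ 2)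
    have h5 : (0 : ℝ) ^ 2 / 4 = 0 := by norm_num
    rw [h5] at h1
    linarith
  refine ⟨norm_pos_iff.1 h2, ?_⟩
  rw [norm_div, norm_pow, div_lt_iff₀ (by positivity)]
  linarith

theorem slit_ne {u : ℂ} (h : ‖u‖ < 1 / 4) : csq (1 - u) ≠ 0 :=
  csq_ne (Complex.slitPlane_ne_zero (slit h))

/-- The sheet coordinate is analytic on `D1`. -/
theorem an_sht {S : L → Bool} (j : L) {p : R.Sp} (hp : p ∈ D1 R S) :
    AnalyticAt ℂ (fun p : R.Sp => R.sht S p j) p := by
  have hpos := an_pos R j p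
  rcases h : R.pl j with k | s
  · have e : (fun p : R.Sp => R.sht S p j) = fun p => gk (R.eps p) k (R.pos p j) *
        (R.XX p k (R.rk j) - R.YY p k (R.rk j)) / 2 := funext fun p => sht_neck R S h p
    rw [e]
    refine (AnalyticAt.mul ?_ ((an_XX R k _ p).sub (an_YY R k _ p))).div analyticAt_const two_ne_zero
    unfold gk
    refine Finset.analyticAt_fun_prod _ fun l _ => ?_
    split_ifs with hl
    · exact analyticAt_const
    · obtain ⟨h1, h2⟩ := u_neck R hp h hl
      refine (hpos.sub analyticAt_const).mul (AnalyticAt.comp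
        (g := csq) (f := fun p : R.Sp => 1 - R.eps p l / (R.pos p j - ctr l) ^ 2)
        (an_csq (slit h2)) ?_)
      exact analyticAt_const.sub ((an_eps R l p).div ((hpos.sub analyticAt_const).pow 2)
        (pow_ne_zero 2 h1))
  · have e : (fun p : R.Sp => R.sht S p j) = fun p => (if s then -1 else 1) *
        (if S j then gcw (R.eps p) (R.pos p j) else gc (R.eps p) (R.pos p j)) :=
      funext fun p => sht_core R S h p
    rw [e]
    refine analyticAt_const.mul ?_
    rcases hS : S j with _ | _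
    · simp only [Bool.false_eq_true, if_false]
      unfold gc
      refine Finset.analyticAt_fun_prod _ fun l _ => ?_
      obtain ⟨h1, h2⟩ := u_core R hp h hS l
      refine (hpos.sub analyticAt_const).mul (AnalyticAt.comp
        (g := csq) (f := fun p : R.Sp => 1 - R.eps p l / (R.pos p j - ctr l) ^ 2)
        (an_csq (slit h2)) ?_)
      exact analyticAt_const.sub ((an_eps R l p).div ((hpos.sub analyticAt_const).pow 2)
        (pow_ne_zero 2 h1))
    · simp only [if_true]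
      unfold gcw
      refine Finset.analyticAt_fun_prod _ fun l _ => ?_
      obtain ⟨h1, h2⟩ := u_far R hp h hS l
      refine (analyticAt_const.sub (analyticAt_const.mul hpos)).mul (AnalyticAt.comp
        (g := csq) (f := fun p : R.Sp => 1 - R.eps p l * R.pos p j ^ 2 / (1 - ctr l * R.pos p j) ^ 2)
        (an_csq (slit h2)) ?_)
      exact analyticAt_const.sub (((an_eps R l p).mul (hpos.pow 2)).div
        ((analyticAt_const.sub (analyticAt_const.mul hpos)).pow 2) (pow_ne_zero 2 h1))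

/-- The curve equation. -/
theorem sht_sq {S : L → Bool} (hS : ∀ j, S j = true → (R.pl j).isRight = true) (j : L) {p : R.Sp}
    (hp : p ∈ D1 R S) : R.sht S p j ^ 2 = pol (S j) (thA (R.eps p)) (R.pos p j) := by
  rcases h : R.pl j with k | s
  · have hSj : S j = false := by
      by_contra hc
      have := hS j (by simpa using hc)
      rw [h] at this
      simp at this
    rw [sht_neck R S h, hSj, pol, if_neg Bool.false_ne_true, sx_thA,
      ← Finset.mul_prod_erase _ _ (Finset.mem_univ k)]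
    have h1 : gk (R.eps p) k (R.pos p j) ^ 2 =
        ∏ l ∈ Finset.univ.erase k, ((R.pos p j - ctr l) ^ 2 - R.eps p l) := by
      rw [gk, ← Finset.mul_prod_erase _ _ (Finset.mem_univ k), if_pos rfl, one_mul,
        ← Finset.prod_pow]
      refine Finset.prod_congr rfl fun l hl => ?_
      obtain ⟨h1, -⟩ := u_neck R hp h (Finset.ne_of_mem_erase hl)
      rw [if_neg (Finset.ne_of_mem_erase hl), mul_pow, csq_sq]
      field_simp
    have h2 : ((R.XX p k (R.rk j) - R.YY p k (R.rk j)) / 2) ^ 2 =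
        (R.pos p j - ctr k) ^ 2 - R.eps p k := by
      rw [pos_neck R h, ← XX_mul_YY R p k (R.rk j)]
      ring
    rw [← h1, ← h2]
    ring
  · rw [sht_core R S h, mul_pow]
    have h0 : ((if s then -1 else 1 : ℂ)) ^ 2 = 1 := by split_ifs <;> norm_num
    rw [h0, one_mul]
    rcases hSj : S j with _ | _
    · rw [pol, if_neg Bool.false_ne_true, if_neg Bool.false_ne_true, sx_thA, gc,
        ← Finset.prod_pow]
      refine Finset.prod_congr rfl fun l _ => ?_
      obtain ⟨h1, -⟩ := u_core R hp h hSj l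
      rw [mul_pow, csq_sq]
      field_simp
    · rw [pol, if_pos rfl, if_pos rfl, sw_thA, gcw, ← Finset.prod_pow]
      refine Finset.prod_congr rfl fun l _ => ?_
      obtain ⟨h1, -⟩ := u_far R hp h hSj l
      rw [mul_pow, csq_sq]
      field_simp

theorem gk_ne {S : L → Bool} {j : L} {p : R.Sp} (hp : p ∈ D1 R S) {k : Fin 3}
    (h : R.pl j = Sum.inl k) : gk (R.eps p) k (R.pos p j) ≠ 0 := by
  refine Finset.prod_ne_zero_iff.2 fun l _ => ?_
  split_ifs with hl
  · exact one_ne_zero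
  · obtain ⟨h1, h2⟩ := u_neck R hp h hl
    exact mul_ne_zero h1 (slit_ne h2)

theorem sht_core_ne {S : L → Bool} {j : L} {p : R.Sp} (hp : p ∈ D1 R S) {s : Bool}
    (h : R.pl j = Sum.inr s) : R.sht S p j ≠ 0 := by
  rw [sht_core R S h]
  refine mul_ne_zero (by split_ifs <;> norm_num) ?_
  rcases hSj : S j with _ | _
  · rw [if_neg Bool.false_ne_true]
    refine Finset.prod_ne_zero_iff.2 fun l _ => ?_
    obtain ⟨h1, h2⟩ := u_core R hp h hSj l
    exact mul_ne_zero h1 (slit_ne h2)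
  · rw [if_pos rfl]
    refine Finset.prod_ne_zero_iff.2 fun l _ => ?_
    obtain ⟨h1, h2⟩ := u_far R hp h hSj l
    exact mul_ne_zero h1 (slit_ne h2)

/-- A neck mark is at a root if and only if `X = Y`. -/
theorem sht_neck_ne {S : L → Bool} {j : L} {p : R.Sp} (hp : p ∈ D1 R S) {k : Fin 3}
    (h : R.pl j = Sum.inl k) :
    R.sht S p j ≠ 0 ↔ R.XX p k (R.rk j) ≠ R.YY p k (R.rk j) := by
  rw [sht_neck R S h, ← sub_ne_zero (a := R.XX p k (R.rk j))]
  have h1 := gk_ne R hp h
  constructor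
  · intro h2 h3
    apply h2
    rw [h3, mul_zero, zero_div]
  · intro h2
    exact div_ne_zero (mul_ne_zero h1 h2) two_ne_zero

/-! ### The domain is open -/

section Open

variable {A ι : Type*} [TopologicalSpace A] {D : Set A}

theorem isOpen_imp {P : Prop} {Q : A → Prop} (hD : IsOpen D) (h : P → IsOpen {p | p ∈ D ∧ Q p}) :
    IsOpen {p | p ∈ D ∧ (P → Q p)} := by
  by_cases hP : P
  · simpa [hP] using h hP
  · simpa [hP] using hD

theorem isOpen_all [Finite ι] {Q : ι → A → Prop} (hD : IsOpen D)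
    (h : ∀ i, IsOpen {p | p ∈ D ∧ Q i p}) : IsOpen {p | p ∈ D ∧ ∀ i, Q i p} := by
  have e : {p | p ∈ D ∧ ∀ i, Q i p} = D ∩ ⋂ i, {p | p ∈ D ∧ Q i p} := by
    ext p
    simp only [mem_ofPred_eq, mem_inter_iff, mem_iInter]
    exact ⟨fun h => ⟨h.1, fun i => ⟨h.1, h.2 i⟩⟩, fun h => ⟨h.1, fun i => (h.2 i).2⟩⟩
  rw [e]
  exact hD.inter (isOpen_iInter_of_finite h)

theorem isOpen_ne' {f g : A → ℂ} (hD : IsOpen D) (hf : ContinuousOn f D) (hg : ContinuousOn g D) :
    IsOpen {p | p ∈ D ∧ f p ≠ g p} := by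
  have h := (hf.sub hg).isOpen_inter_preimage hD (isOpen_compl_singleton (x := (0 : ℂ)))
  have e : D ∩ (f - g) ⁻¹' {0}ᶜ = {p | p ∈ D ∧ f p ≠ g p} := by
    ext p
    simp [sub_eq_zero]
  rwa [← e]

theorem isOpen_or {P Q : A → Prop} (h1 : IsOpen {p | p ∈ D ∧ P p}) (h2 : IsOpen {p | p ∈ D ∧ Q p}) :
    IsOpen {p | p ∈ D ∧ (P p ∨ Q p)} := by
  have e : {p | p ∈ D ∧ (P p ∨ Q p)} = {p | p ∈ D ∧ P p} ∪ {p | p ∈ D ∧ Q p} := by
    ext p
    simp only [mem_ofPred_eq, mem_union]
    tauto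
  rw [e]
  exact h1.union h2

theorem isOpen_notSame (hD : IsOpen D) (s s' : Bool) {z v z' v' : A → ℂ} (hz : ContinuousOn z D)
    (hv : ContinuousOn v D) (hz' : ContinuousOn z' D) (hv' : ContinuousOn v' D) :
    IsOpen {p | p ∈ D ∧ ¬ Same s (z p) (v p) s' (z' p) (v' p)} := by
  by_cases h : s = s'
  · simp only [Same, if_pos h, not_and_or]
    exact isOpen_or (isOpen_ne' hD hz hz') (isOpen_ne' hD hv hv')
  · simp only [Same, if_neg h, not_and_or]
    exact isOpen_or (isOpen_ne' hD (hz.mul hz') continuousOn_const)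
      (isOpen_ne' hD hv' (hv.mul (hz'.pow 3)))

end Open

theorem contOn_sht (S : L → Bool) (j : L) : ContinuousOn (fun p : R.Sp => R.sht S p j) (D1 R S) :=
  fun _ hp => (an_sht R j hp).continuousAt.continuousWithinAt

/-- **The domain of a region is open.** -/
theorem isOpen_dom (S : L → Bool) : IsOpen (R.dom S) := by
  have hD := isOpen_D1 R S
  have h1 : IsOpen {p | p ∈ D1 R S ∧ ∀ i j : L, i ≠ j → i.2 = j.2 →
      (∀ k, ¬ (R.pl i = Sum.inl k ∧ R.pl j = Sum.inl k)) →
      ¬ Same (S i) (R.pos p i) (R.sht S p i) (S j) (R.pos p j) (R.sht S p j)} :=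
    isOpen_all hD fun i => isOpen_all hD fun j => isOpen_imp hD fun _ => isOpen_imp hD fun _ =>
      isOpen_imp hD fun _ => isOpen_notSame hD _ _ (cont_pos R i).continuousOn (contOn_sht R S i)
        (cont_pos R j).continuousOn (contOn_sht R S j)
  have h2 : IsOpen {p | p ∈ D1 R S ∧ ∀ (i j : L) (k : Fin 3), R.pl i = Sum.inl k →
      R.pl j = Sum.inl k → i.2 = j.2 → R.rk i < R.rk j →
      ∏ g : Fin (R.n k + 1), (if R.rk i < (g : ℕ) ∧ (g : ℕ) ≤ R.rk j then p.1 ⟨k, g⟩ else 1) ≠ 1} := by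
    refine isOpen_all hD fun i => isOpen_all hD fun j => isOpen_all hD fun k =>
      isOpen_imp hD fun _ => isOpen_imp hD fun _ => isOpen_imp hD fun _ => isOpen_imp hD fun _ =>
      isOpen_ne' hD (Continuous.continuousOn ?_) continuousOn_const
    refine continuous_finsetProd _ fun g _ => ?_
    split_ifs
    · exact continuous_iff_continuousAt.2 fun p => (an_gap R _ p).continuousAt
    · exact continuous_const
  have e : R.dom S = {p | p ∈ D1 R S ∧ ∀ i j : L, i ≠ j → i.2 = j.2 →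
      (∀ k, ¬ (R.pl i = Sum.inl k ∧ R.pl j = Sum.inl k)) →
      ¬ Same (S i) (R.pos p i) (R.sht S p i) (S j) (R.pos p j) (R.sht S p j)} ∩
      {p | p ∈ D1 R S ∧ ∀ (i j : L) (k : Fin 3), R.pl i = Sum.inl k →
      R.pl j = Sum.inl k → i.2 = j.2 → R.rk i < R.rk j →
      ∏ g : Fin (R.n k + 1), (if R.rk i < (g : ℕ) ∧ (g : ℕ) ≤ R.rk j then p.1 ⟨k, g⟩ else 1) ≠ 1} := by
    ext p
    exact ⟨fun h => ⟨⟨⟨h.1, h.2.1, h.2.2.1⟩, h.2.2.2.1⟩, ⟨h.1, h.2.1, h.2.2.1⟩, h.2.2.2.2⟩,
      fun h => ⟨h.1.1.1, h.1.1.2.1, h.1.1.2.2, h.1.2, h.2.2⟩⟩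
  rw [e]
  exact h1.inter h2

end Reg

end Vale.Agent.P273.H375

end
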