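import Vale.Agent.P273.H375.DenG
import Vale.Agent.P273.H888.ExtH

/-!
The map of a region to (coefficients, positions) is analytic; `PosOK` (H888/ExtH) for all regions.
-/

noncomputable section

namespace Vale.Agent.P273.H375

open Set Filter H95
open scoped Topology ContDiff

section Coef

open Polynomial

variable {A : Type*} [NormedAddCommGroup A] [NormedSpace ℂ A]

/-- All coefficients are analytic. -/
def AnC (f : A → ℂ[X]) (p : A) : Prop := ∀ n, AnalyticAt ℂ (fun a => (f a).coeff n) p

theorem AnC.const (q : ℂ[X]) (p : A) : AnC (fun _ => q) p := fun _ => analyticAt_const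

theorem AnC.C {e : A → ℂ} {p : A} (h : AnalyticAt ℂ e p) : AnC (fun a => Polynomial.C (e a)) p := by
  intro n
  simp only [coeff_C]
  split_ifs
  · exact h
  · exact analyticAt_const

theorem AnC.sub {f g : A → ℂ[X]} {p : A} (hf : AnC f p) (hg : AnC g p) :
    AnC (fun a => f a - g a) p := by
  intro n
  simp only [coeff_sub]
  exact (hf n).sub (hg n)

theorem AnC.mul {f g : A → ℂ[X]} {p : A} (hf : AnC f p) (hg : AnC g p) :
    AnC (fun a => f a * g a) p := by
  intro n
  simp only [coeff_mul]
  exact Finset.analyticAt_fun_sum _ fun x _ => (hf _).mul (hg _)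

theorem AnC.prod {ι : Type*} (s : Finset ι) {f : ι → A → ℂ[X]} {p : A} (h : ∀ i ∈ s, AnC (f i) p) :
    AnC (fun a => ∏ i ∈ s, f i a) p := by
  classical
  induction s using Finset.induction_on with
  | empty => simpa using AnC.const 1 p
  | insert a s ha ih =>
    simp only [Finset.prod_insert ha]
    exact (h a (Finset.mem_insert_self _ _)).mul (ih fun i hi => h i (Finset.mem_insert_of_mem hi))

theorem an_thA {ε : A → Fin 3 → ℂ} {p : A} (h : ∀ k, AnalyticAt ℂ (fun a => ε a k) p) :
    AnalyticAt ℂ (fun a => thA (ε a)) p := by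
  rw [analyticAt_pi_iff]
  intro i
  exact AnC.prod Finset.univ (fun k _ => (AnC.const _ p).sub (AnC.C (h k))) i

end Coef

theorem an_psi (R : Region) (p : R.Sp) : AnalyticAt ℂ R.psi p :=
  (an_thA fun k => an_eps R k p).prod (analyticAt_pi_iff.2 fun j => an_pos R j p)

theorem contDiff_psi' (R : Region) : ContDiff ℝ ∞ R.psi :=
  contDiff_iff_contDiffAt.2 fun p =>
    ((an_psi R p).contDiffAt (n := ∞)).restrict_scalars ℝ

/-- **The facts on positions, for all regions.** -/
theorem posOK {R : Region} {S : L → Bool} (hS : H888.Far R S) : H888.PosOK R S where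
  isOpen := isOpen_dom R S
  psi := (contDiff_psi' R).contDiffOn
  sht j := (contOn_sht R S j).mono (dom_subset R S)
  sq p hp j := sht_sq R hS j (dom_subset R S hp)
  K p hp := psi_mem_K6 R (dom_subset R S hp)
  sep p hp hs := sep R hS hp hs
  dense := by
    have h := dense_dist R hS
    refine h.trans (closure_mono ?_)
    rintro p ⟨h1, h2, h3, h4⟩
    exact ⟨h1, h2, h3, h4⟩

end Vale.Agent.P273.H375

end
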