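import Vale.Agent.P273.H591.Dense
import Vale.Agent.P273.H732.Chart

/-!
Density of the standard part of a chart: finitely many analytic conditions `P i b ≠ 0`, and the
literal conditions in the coordinates (gaps, core marks).
-/

set_option linter.unusedSectionVars false

noncomputable section

namespace Vale.Agent.P273.H375

open Set Filter
open scoped Topology ContDiff

section Gen

variable {𝕜 A B ι : Type*} [NontriviallyNormedField 𝕜] [NormedAddCommGroup A] [NormedSpace 𝕜 A]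
  [NormedAddCommGroup B] [NormedSpace 𝕜 B]

theorem isOpen_std [Finite ι] {P : ι → A → B} {W : Set A} (hW : IsOpen W)
    (hP : ∀ i, ContinuousOn (P i) W) : IsOpen {b | b ∈ W ∧ ∀ i, P i b ≠ 0} := by
  have h1 : {b | b ∈ W ∧ ∀ i, P i b ≠ 0} = W ∩ ⋂ i, (W ∩ P i ⁻¹' {0}ᶜ) := by
    ext b
    simp only [mem_ofPred_eq, mem_inter_iff, mem_iInter, mem_preimage, mem_compl_iff,
      mem_singleton_iff]
    constructor
    · rintro ⟨h, h'⟩
      exact ⟨h, fun i => ⟨h, h' i⟩⟩
    · rintro ⟨h, h'⟩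
      exact ⟨h, fun i => (h' i).2⟩
  rw [h1]
  exact hW.inter (isOpen_iInter_of_finite fun i =>
    (hP i).isOpen_inter_preimage hW isOpen_compl_singleton)

/-- **Density of the standard part.** `W` is open and a part of the preconnected set `Ω` on which
the finitely many functions `P i` are analytic and not identically zero: the part of `W` where no
`P i` vanishes is open and dense in `W`. -/
theorem dense_std [Finite ι] {P : ι → A → B} {W Ω : Set A} (hW : IsOpen W) (hWΩ : W ⊆ Ω)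
    (hΩ : IsPreconnected Ω) (hP : ∀ i, AnalyticOnNhd 𝕜 (P i) Ω)
    (h0 : ∀ i, ∃ p ∈ Ω, P i p ≠ 0) : W ⊆ closure {b | b ∈ W ∧ ∀ i, P i b ≠ 0} := by
  have hc : ∀ i, ContinuousOn (P i) W := fun i b hb =>
    ((hP i b (hWΩ hb)).continuousAt).continuousWithinAt
  have h1 : ∀ i, IsOpen (W ∩ P i ⁻¹' {0}ᶜ) := fun i =>
    (hc i).isOpen_inter_preimage hW isOpen_compl_singleton
  have h2 : ∀ i, W ⊆ closure (W ∩ P i ⁻¹' {0}ᶜ) := by
    intro i
    obtain ⟨p, hp, hp0⟩ := h0 i
    have h3 : Ω ⊆ closure {b | P i b ≠ 0} := H591.dense_ne_zero hΩ (hP i) hp hp0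
    have h4 := H591.subset_closure_inter (U := W) hW (hWΩ.trans h3)
    rwa [inter_self] at h4
  have h5 := H591.dense_iInter_of_finite hW h1 h2
  have h6 := H591.subset_closure_inter (U := W) hW h5
  rw [inter_self] at h6
  refine h6.trans (closure_mono ?_)
  rintro b ⟨hb, hb'⟩
  exact ⟨hb, fun i => (mem_iInter.1 hb' i).2⟩

/-- The row FAM-TT-DEN in its literal form: `W` open and convex. -/
theorem convex_std [NormedSpace ℝ A] [Finite ι] {P : ι → A → B} {W : Set A} (hW : IsOpen W)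
    (hc : Convex ℝ W) (hP : ∀ i, AnalyticOnNhd 𝕜 (P i) W) (h0 : ∀ i, ∃ p ∈ W, P i p ≠ 0) :
    IsOpen {b | b ∈ W ∧ ∀ i, P i b ≠ 0} ∧ W ⊆ closure {b | b ∈ W ∧ ∀ i, P i b ≠ 0} :=
  ⟨isOpen_std hW fun i b hb => ((hP i b hb).continuousAt).continuousWithinAt,
    dense_std hW subset_rfl hc.isPreconnected hP h0⟩

/-- The same for functions analytic on the whole space (for example polynomials): `W` is any open
set. -/
theorem entire_std [NormedSpace ℝ A] [Finite ι] {P : ι → A → B} {W : Set A} (hW : IsOpen W)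
    (hP : ∀ i, AnalyticOnNhd 𝕜 (P i) univ) (h0 : ∀ i, ∃ p, P i p ≠ 0) :
    IsOpen {b | b ∈ W ∧ ∀ i, P i b ≠ 0} ∧ W ⊆ closure {b | b ∈ W ∧ ∀ i, P i b ≠ 0} :=
  ⟨isOpen_std hW fun i b _ => ((hP i b (mem_univ b)).continuousAt).continuousWithinAt,
    dense_std hW (subset_univ W) isPreconnected_univ hP fun i =>
      let ⟨p, hp⟩ := h0 i; ⟨p, mem_univ p, hp⟩⟩

/-- Polynomials that are not zero. -/
theorem mvPolynomial_std {σ : Type*} [Fintype σ] [Finite ι] {P : ι → MvPolynomial σ ℂ}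
    {W : Set (σ → ℂ)} (hW : IsOpen W) (h0 : ∀ i, P i ≠ 0) :
    IsOpen {b | b ∈ W ∧ ∀ i, MvPolynomial.eval b (P i) ≠ 0} ∧
      W ⊆ closure {b | b ∈ W ∧ ∀ i, MvPolynomial.eval b (P i) ≠ 0} := by
  refine entire_std (𝕜 := ℂ) (P := fun i b => MvPolynomial.eval b (P i)) hW (fun i => ?_)
    fun i => ?_
  · exact AnalyticOnNhd.eval_mvPolynomial (P i)
  · by_contra hc
    push Not at hc
    exact h0 i (MvPolynomial.funext fun x => by rw [hc x, map_zero])

end Gen

section Sextic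

open Polynomial

variable {K : Type*} [Fintype K]

/-- The polynomial `∏ ((x - e k) ^ 2 - ε k)`. -/
def sext (e ε : K → ℂ) (x : ℂ) : ℂ := ∏ k, ((x - e k) ^ 2 - ε k)

/-- The polynomial `∏ ((x - e k) ^ 2 - ε k)`. -/
def sextP (e ε : K → ℂ) : ℂ[X] := ∏ k, ((X - C (e k)) ^ 2 - C (ε k))

theorem eval_sextP (e ε : K → ℂ) (x : ℂ) : (sextP e ε).eval x = sext e ε x := by
  simp [sextP, sext, eval_prod]

theorem coprime_quad {p q a b : ℂ} (h : ((p - q) ^ 2 + a - b) ^ 2 ≠ 4 * (p - q) ^ 2 * a) :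
    IsCoprime ((X - C p) ^ 2 - C a : ℂ[X]) ((X - C q) ^ 2 - C b) := by
  rw [Polynomial.isCoprime_iff_aeval_ne_zero_of_isAlgClosed ℂ ℂ]
  intro x
  by_contra hc
  push Not at hc
  obtain ⟨h1, h2⟩ := hc
  simp only [map_sub, map_pow, aeval_X, aeval_C, Algebra.algebraMap_self, RingHom.id_apply] at h1 h2
  apply h
  have h3 : a = (x - p) ^ 2 := by linear_combination -h1
  have h4 : b = (x - q) ^ 2 := by linear_combination -h2
  rw [h3, h4]
  ring

theorem separable_quad {p a : ℂ} (h : a ≠ 0) : ((X - C p) ^ 2 - C a : ℂ[X]).Separable := by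
  rw [Polynomial.separable_def']
  refine ⟨C (-a⁻¹), C (a⁻¹ / 2) * (X - C p), ?_⟩
  have h1 : derivative ((X - C p) ^ 2 - C a : ℂ[X]) = C 2 * (X - C p) := by
    simp [derivative_pow]
  rw [h1]
  have h2 : (C (a⁻¹) * C a : ℂ[X]) = 1 := by rw [← C_mul, inv_mul_cancel₀ h, C_1]
  have h3 : (C (a⁻¹ / 2) * C 2 : ℂ[X]) = C a⁻¹ := by rw [← C_mul]; congr 1; ring
  have h4 : (C (-a⁻¹) : ℂ[X]) = - C a⁻¹ := by simp
  rw [h4]
  linear_combination (X - C p) ^ 2 * h3 + h2

/-- The polynomial is separable if the `ε k` are not zero and the resultants of the factors are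
not zero. -/
theorem separable_sextP {e ε : K → ℂ} (h0 : ∀ k, ε k ≠ 0)
    (h : ∀ k l, k ≠ l → ((e k - e l) ^ 2 + ε k - ε l) ^ 2 ≠ 4 * (e k - e l) ^ 2 * ε k) :
    (sextP e ε).Separable :=
  Polynomial.separable_prod (fun k l hkl => coprime_quad (h k l hkl)) fun k => separable_quad (h0 k)

end Sextic

section Chart

open H732 H732.Reg

variable {K G C : Type} [DecidableEq K] [Fintype K] [DecidableEq G] [Fintype G] [Fintype C]
  (R : Reg K G)

/-- The product of the gaps of a neck. -/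
def eps (t : R.Tg C) (k : K) : ℂ := ∏ g, if R.nk g = k then t.1 g else 1

/-- The literal standard part: no gap is zero, no product of gaps is one, the resultants of the
factors of the sextic are not zero, the core marks are distinct and not roots. -/
def Std (e : K → ℂ) : Set (R.Tg C) :=
  {t | (∀ g, t.1 g ≠ 0) ∧ (∀ S : Finset G, S.Nonempty → ∏ g ∈ S, t.1 g ≠ 1) ∧
    (∀ k l, k ≠ l → ((e k - e l) ^ 2 + eps R t k - eps R t l) ^ 2 ≠ 4 * (e k - e l) ^ 2 * eps R t k) ∧
    (∀ c k, (t.2 c - e k) ^ 2 ≠ eps R t k) ∧ ∀ c c', c ≠ c' → t.2 c ≠ t.2 c'}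

/-- The index set of the conditions. -/
abbrev Ix (K G C : Type) : Type :=
  G ⊕ {S : Finset G // S.Nonempty} ⊕ {p : K × K // p.1 ≠ p.2} ⊕ (C × K) ⊕ {p : C × C // p.1 ≠ p.2}

/-- The functions of the conditions. -/
def cd (e : K → ℂ) : Ix K G C → R.Tg C → ℂ
  | .inl g => fun t => t.1 g
  | .inr (.inl S) => fun t => ∏ g ∈ S.1, t.1 g - 1
  | .inr (.inr (.inl p)) => fun t =>
      ((e p.1.1 - e p.1.2) ^ 2 + eps R t p.1.1 - eps R t p.1.2) ^ 2
        - 4 * (e p.1.1 - e p.1.2) ^ 2 * eps R t p.1.1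
  | .inr (.inr (.inr (.inl p))) => fun t => (t.2 p.1 - e p.2) ^ 2 - eps R t p.2
  | .inr (.inr (.inr (.inr p))) => fun t => t.2 p.1.1 - t.2 p.1.2

theorem mem_std_iff (e : K → ℂ) (t : R.Tg C) : t ∈ Std R e ↔ ∀ i, cd R e i t ≠ 0 := by
  constructor
  · rintro ⟨h1, h2, h3, h4, h5⟩ (g | S | p | p | p)
    · exact h1 g
    · exact sub_ne_zero.2 (h2 S.1 S.2)
    · exact sub_ne_zero.2 (h3 _ _ p.2)
    · exact sub_ne_zero.2 (h4 _ _)
    · exact sub_ne_zero.2 (h5 _ _ p.2)
  · intro h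
    refine ⟨fun g => h (.inl g), fun S hS => sub_ne_zero.1 (h (.inr (.inl ⟨S, hS⟩))),
      fun k l hkl => sub_ne_zero.1 (h (.inr (.inr (.inl ⟨(k, l), hkl⟩)))),
      fun c k => sub_ne_zero.1 (h (.inr (.inr (.inr (.inl (c, k)))))),
      fun c c' hc => sub_ne_zero.1 (h (.inr (.inr (.inr (.inr ⟨(c, c'), hc⟩)))))⟩

theorem analyticAt_gap (g : G) (t : R.Tg C) : AnalyticAt ℂ (fun t : R.Tg C => t.1 g) t :=
  ((ContinuousLinearMap.proj g : (G → ℂ) →L[ℂ] ℂ).analyticAt _).comp analyticAt_fst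

theorem analyticAt_core (c : C) (t : R.Tg C) : AnalyticAt ℂ (fun t : R.Tg C => t.2 c) t :=
  ((ContinuousLinearMap.proj c : (C → ℂ) →L[ℂ] ℂ).analyticAt _).comp analyticAt_snd

theorem analyticAt_eps (k : K) (t : R.Tg C) : AnalyticAt ℂ (fun t : R.Tg C => eps R t k) t := by
  unfold eps
  refine Finset.analyticAt_fun_prod _ fun g _ => ?_
  split_ifs
  · exact analyticAt_gap R g t
  · exact analyticAt_const

theorem eps_zero (s : C → ℂ) (k : K) : eps R ((0 : G → ℂ), s) k = 0 :=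
  Finset.prod_eq_zero (Finset.mem_univ (R.last k)) (by simp [R.nk_last])

theorem analyticAt_cd (e : K → ℂ) (i : Ix K G C) (t : R.Tg C) : AnalyticAt ℂ (cd R e i) t := by
  rcases i with g | S | p | p | p
  · exact analyticAt_gap R g t
  · exact (Finset.analyticAt_fun_prod _ fun g _ => analyticAt_gap R g t).sub analyticAt_const
  · exact (((analyticAt_const.add (analyticAt_eps R _ t)).sub (analyticAt_eps R _ t)).pow 2).sub
      (analyticAt_const.mul (analyticAt_eps R _ t))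
  · exact (((analyticAt_core R _ t).sub analyticAt_const).pow 2).sub (analyticAt_eps R _ t)
  · exact (analyticAt_core R _ t).sub (analyticAt_core R _ t)

theorem exists_cd_ne {e : K → ℂ} (he : Function.Injective e) (i : Ix K G C) :
    ∃ t, cd R e i t ≠ 0 := by
  classical
  rcases i with g | S | p | p | p
  · exact ⟨(1, 0), one_ne_zero⟩
  · refine ⟨(0, 0), ?_⟩
    obtain ⟨g, hg⟩ := S.2
    have h1 : ∏ g ∈ S.1, (0 : G → ℂ) g = 0 := Finset.prod_eq_zero hg rfl
    change ∏ g ∈ S.1, (0 : G → ℂ) g - 1 ≠ 0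
    rw [h1, zero_sub]
    exact neg_ne_zero.2 one_ne_zero
  · refine ⟨(0, 0), ?_⟩
    have h1 : e p.1.1 - e p.1.2 ≠ 0 := sub_ne_zero.2 (he.ne p.2)
    simp [cd, eps_zero, h1]
  · refine ⟨(0, fun _ => e p.2 + 1), ?_⟩
    simp [cd, eps_zero]
  · refine ⟨(0, Pi.single p.1.1 1), ?_⟩
    simp [cd, Pi.single_eq_of_ne p.2.symm]

/-- **The literal standard part is open and dense** in every open set `W`, also together with
finitely many further conditions `Q j t ≠ 0`. -/
theorem std_chart {J : Type*} [Finite J] {e : K → ℂ} (he : Function.Injective e)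
    {W : Set (R.Tg C)} (hW : IsOpen W) {Q : J → R.Tg C → ℂ}
    (hQ : ∀ j, AnalyticOnNhd ℂ (Q j) univ) (hQ0 : ∀ j, ∃ t, Q j t ≠ 0) :
    IsOpen {t | t ∈ W ∧ t ∈ Std R e ∧ ∀ j, Q j t ≠ 0} ∧
      W ⊆ closure {t | t ∈ W ∧ t ∈ Std R e ∧ ∀ j, Q j t ≠ 0} := by
  have h1 := entire_std (𝕜 := ℂ) (P := Sum.elim (cd R e (C := C)) Q) hW
    (by
      rintro (i | j)
      · exact fun t _ => analyticAt_cd R e i t
      · exact hQ j)
    (by
      rintro (i | j)
      · exact exists_cd_ne R he i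
      · exact hQ0 j)
  have h2 : {b | b ∈ W ∧ ∀ i, Sum.elim (cd R e (C := C)) Q i b ≠ 0} =
      {t | t ∈ W ∧ t ∈ Std R e ∧ ∀ j, Q j t ≠ 0} := by
    ext t
    simp only [mem_ofPred_eq, Sum.forall, Sum.elim_inl, Sum.elim_inr, mem_std_iff]
  rwa [h2] at h1

/-- The same without further conditions. -/
theorem std_chart' {e : K → ℂ} (he : Function.Injective e) {W : Set (R.Tg C)} (hW : IsOpen W) :
    IsOpen (W ∩ Std R e) ∧ W ⊆ closure (W ∩ Std R e) := by
  have h := std_chart R he hW (J := Empty) (Q := fun j => j.elim) (fun j => j.elim) fun j => j.elim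
  have h2 : {t | t ∈ W ∧ t ∈ Std R e ∧ ∀ j : Empty,
      (fun j : Empty => (j.elim : R.Tg C → ℂ)) j t ≠ 0} = W ∩ Std R e := by
    ext t
    exact ⟨fun h => ⟨h.1, h.2.1⟩, fun h => ⟨h.1, h.2, fun j => j.elim⟩⟩
  rwa [h2] at h

/-- On the standard part the sextic has no double root. -/
theorem separable_of_mem_std {e : K → ℂ} {t : R.Tg C} (ht : t ∈ Std R e) :
    (sextP e (eps R t)).Separable := by
  refine separable_sextP (fun k => ?_) ht.2.2.1
  refine Finset.prod_ne_zero_iff.2 fun g _ => ?_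
  split_ifs
  · exact ht.1 g
  · exact one_ne_zero

/-- On the standard part no core mark is a root. -/
theorem sext_core_ne {e : K → ℂ} {t : R.Tg C} (ht : t ∈ Std R e) (c : C) :
    sext e (eps R t) (t.2 c) ≠ 0 :=
  Finset.prod_ne_zero_iff.2 fun k _ => sub_ne_zero.2 (ht.2.2.2.1 c k)

/-- The derivative of the logarithmic chart is surjective. -/
theorem dpsi_surjective [DecidableEq C] (p : R.Co C) : Function.Surjective (R.dpsi p) := by
  rintro ⟨t, s⟩
  let z : G → ℂ := fun g => t g / R.tau p g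
  let w : R.Co C := (fun f => -(z f.1).re, fun f => (z f.1).im,
    fun k => -(z (R.last k)).re + ∑ f : R.Fr, if R.nk f.1 = k then -(z f.1).re else 0,
    fun k => (z (R.last k)).im + ∑ f : R.Fr, if R.nk f.1 = k then (z f.1).im else 0, s)
  have hu : ∀ g, R.ug w g = -(z g).re := by
    intro g
    by_cases h : g ≠ R.last (R.nk g)
    · exact R.ug_free w ⟨g, h⟩
    · have h' : g = R.last (R.nk g) := not_not.1 h
      rw [h', ug_last]
      simp [w, ul]
  have hf : ∀ g, R.fg w g = (z g).im := by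
    intro g
    by_cases h : g ≠ R.last (R.nk g)
    · exact R.fg_free w ⟨g, h⟩
    · have h' : g = R.last (R.nk g) := not_not.1 h
      rw [h', fg_last]
      simp [w, al]
  have hZ : ∀ g, R.Z w g = z g := by
    intro g
    rw [Z, hu, hf]
    push_cast
    rw [neg_neg, Complex.re_add_im]
  refine ⟨w, ?_⟩
  rw [dpsi_apply]
  refine Prod.ext (funext fun g => ?_) rfl
  change R.tau p g * R.Z w g = t g
  rw [hZ]
  exact mul_div_cancel₀ _ (Complex.exp_ne_zero _)

/-- The logarithmic chart is an open map. -/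
theorem map_nhds_psi [DecidableEq C] (p : R.Co C) :
    map (R.psi (C := C)) (𝓝 p) = 𝓝 (R.psi p) := by
  have h1 : HasStrictFDerivAt (R.psi (C := C)) (R.dpsi p) p := by
    have h2 := (R.contDiff_psi (C := C)).contDiffAt.hasStrictFDerivAt (x := p) (by simp)
    rwa [(R.hasFDerivAt_psi p).fderiv] at h2
  exact h1.map_nhds_eq_of_surj (LinearMap.range_eq_top.2 (dpsi_surjective R p))

/-- A part of the chart whose closure contains the image of `U` has a dense preimage in `U`. -/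
theorem dense_psi [DecidableEq C] {U : Set (R.Co C)} {D : Set (R.Tg C)}
    (h : ∀ p ∈ U, R.psi p ∈ closure D) : U ⊆ closure (R.psi (C := C) ⁻¹' D) :=
  H591.preimage_dense (fun p _ => (map_nhds_psi R p).ge) h

/-- The standard part in the logarithmic coordinates is open and dense. -/
theorem std_psi [DecidableEq C] {e : K → ℂ} (he : Function.Injective e) :
    IsOpen (R.psi (C := C) ⁻¹' Std R e) ∧ Dense (R.psi (C := C) ⁻¹' Std R e) := by
  obtain ⟨h1, h2⟩ := std_chart' R (C := C) he isOpen_univ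
  rw [univ_inter] at h1 h2
  exact ⟨h1.preimage R.continuous_psi, fun p =>
    dense_psi R (U := univ) (fun q _ => h2 (mem_univ _)) (mem_univ p)⟩

/-! ### Coordinates in `Fin m → ℂ` -/

/-- The chart coordinates read off a point of `Fin m → ℂ`. -/
def tg {m : ℕ} (ι : G ⊕ C ≃ Fin m) (b : Fin m → ℂ) : R.Tg C :=
  (fun g => b (ι (.inl g)), fun c => b (ι (.inr c)))

/-- The point of `Fin m → ℂ` with given chart coordinates. -/
def gt {m : ℕ} (ι : G ⊕ C ≃ Fin m) (t : R.Tg C) : Fin m → ℂ :=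
  fun i => Sum.elim t.1 t.2 (ι.symm i)

theorem tg_gt {m : ℕ} (ι : G ⊕ C ≃ Fin m) (t : R.Tg C) : tg R ι (gt R ι t) = t := by
  simp [tg, gt]

theorem gt_tg {m : ℕ} (ι : G ⊕ C ≃ Fin m) (b : Fin m → ℂ) : gt R ι (tg R ι b) = b := by
  funext i
  obtain ⟨x, rfl⟩ := ι.surjective i
  rcases x with g | c <;> simp [tg, gt]

theorem analyticAt_tg {m : ℕ} (ι : G ⊕ C ≃ Fin m) (b : Fin m → ℂ) :
    AnalyticAt ℂ (tg R ι) b := by
  have h : ∀ i, AnalyticAt ℂ (fun b : Fin m → ℂ => b i) b := fun i =>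
    (ContinuousLinearMap.proj i : (Fin m → ℂ) →L[ℂ] ℂ).analyticAt b
  exact (analyticAt_pi_iff.2 fun g => h _).prod (analyticAt_pi_iff.2 fun c => h _)

/-- **The standard part in `Fin m → ℂ`** with finitely many further conditions `Q j b ≠ 0`. -/
theorem std_fin {J : Type*} [Finite J] {m : ℕ} (ι : G ⊕ C ≃ Fin m) {e : K → ℂ}
    (he : Function.Injective e) {W : Set (Fin m → ℂ)} (hW : IsOpen W)
    {Q : J → (Fin m → ℂ) → ℂ} (hQ : ∀ j, AnalyticOnNhd ℂ (Q j) univ) (hQ0 : ∀ j, ∃ b, Q j b ≠ 0) :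
    IsOpen {b | b ∈ W ∧ tg R ι b ∈ Std R e ∧ ∀ j, Q j b ≠ 0} ∧
      W ⊆ closure {b | b ∈ W ∧ tg R ι b ∈ Std R e ∧ ∀ j, Q j b ≠ 0} := by
  have h1 := entire_std (𝕜 := ℂ) (P := Sum.elim (fun i b => cd R e (C := C) i (tg R ι b)) Q) hW
    (by
      rintro (i | j)
      · exact fun b _ => (analyticAt_cd R e i (tg R ι b)).comp (analyticAt_tg R ι b)
      · exact hQ j)
    (by
      rintro (i | j)
      · obtain ⟨t, ht⟩ := exists_cd_ne R he i
        refine ⟨gt R ι t, ?_⟩
        change cd R e i (tg R ι (gt R ι t)) ≠ 0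
        rwa [tg_gt]
      · exact hQ0 j)
  have h2 : {b | b ∈ W ∧ ∀ i, Sum.elim (fun i b => cd R e (C := C) i (tg R ι b)) Q i b ≠ 0} =
      {b | b ∈ W ∧ tg R ι b ∈ Std R e ∧ ∀ j, Q j b ≠ 0} := by
    ext t
    simp only [mem_ofPred_eq, Sum.forall, Sum.elim_inl, Sum.elim_inr, mem_std_iff]
  rwa [h2] at h1

end Chart

end Vale.Agent.P273.H375

end
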