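import Vale.Agent.P273.H375.DenR

/-!
Generic points of the regions at the theta point: they are open and dense; positions of the marks.
-/

noncomputable section

namespace Vale.Agent.P273.H375

open Set Filter H95
open scoped Topology ContDiff

variable (R : Region)

/-- The index set of the conditions for generic points. -/
abbrev GIx : Type := R.Gap ⊕ {A : Finset R.Gap // A.Nonempty} ⊕ L ⊕ L ⊕ (L × L)

/-- The condition `X ≠ Y` for a neck mark. -/
def gfX (j : L) (p : R.Sp) : ℂ :=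
  (R.pl j).elim (fun k => R.XX p k (R.rk j) - R.YY p k (R.rk j)) fun _ => 1

/-- The condition that two marks are distinct. -/
def gfP (S : L → Bool) (i j : L) (p : R.Sp) : ℂ :=
  if i = j then 1 else if S i = S j then R.pos p i - R.pos p j else R.pos p i * R.pos p j - 1

/-- The polynomials of the conditions for generic points. -/
def gf (S : L → Bool) : GIx R → R.Sp → ℂ
  | .inl g => fun p => p.1 g
  | .inr (.inl A) => fun p => ∏ g ∈ A.1, p.1 g - 1
  | .inr (.inr (.inl j)) => fun p => R.pos p j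
  | .inr (.inr (.inr (.inl j))) => gfX R j
  | .inr (.inr (.inr (.inr q))) => gfP R S q.1 q.2

/-- The generic points. -/
def Gen (S : L → Bool) : Set R.Sp := {p | ∀ i, gf R S i p ≠ 0}

theorem an_gf (S : L → Bool) (i : GIx R) (p : R.Sp) : AnalyticAt ℂ (gf R S i) p := by
  rcases i with g | A | j | j | q
  · exact an_gap R g p
  · exact (Finset.analyticAt_fun_prod _ fun g _ => an_gap R g p).sub analyticAt_const
  · exact an_pos R j p
  · change AnalyticAt ℂ (gfX R j) p
    unfold gfX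
    rcases h : R.pl j with k | s
    · exact (an_XX R k _ p).sub (an_YY R k _ p)
    · exact analyticAt_const
  · change AnalyticAt ℂ (gfP R S q.1 q.2) p
    unfold gfP
    split_ifs
    · exact analyticAt_const
    · exact (an_pos R _ p).sub (an_pos R _ p)
    · exact ((an_pos R _ p).mul (an_pos R _ p)).sub analyticAt_const

theorem XX_zero (s : R.Cm → ℂ) (k : Fin 3) (i : ℕ) : R.XX ((0 : R.Gap → ℂ), s) k i = 0 :=
  Finset.prod_eq_zero (Finset.mem_univ (0 : Fin (R.n k + 1))) (by simp)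

theorem YY_zero (s : R.Cm → ℂ) (k : Fin 3) {i : ℕ} (hi : i < R.n k) :
    R.YY ((0 : R.Gap → ℂ), s) k i = 0 :=
  Finset.prod_eq_zero (Finset.mem_univ (Fin.last (R.n k))) (by simp [hi])

theorem rk_lt_n {j : L} {k : Fin 3} (h : R.pl j = Sum.inl k) : R.rk j < R.n k := R.rk_lt j k h

theorem pos_zero {j : L} {k : Fin 3} (h : R.pl j = Sum.inl k) (s : R.Cm → ℂ) :
    R.pos ((0 : R.Gap → ℂ), s) j = ctr k := by
  rw [pos_neck R h, XX_zero, YY_zero R s k (rk_lt_n R h)]
  ring

/-- Test point: the gaps of the neck `k` up to `i` are one, the others zero. -/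
def tp (k : Fin 3) (i : ℕ) : R.Sp := (fun g => if g.1 = k ∧ (g.2 : ℕ) ≤ i then 1 else 0, 0)

theorem XX_tp (k : Fin 3) (i : ℕ) : R.XX (tp R k i) k i = 1 := by
  refine Finset.prod_eq_one fun g _ => ?_
  by_cases h : (g : ℕ) ≤ i
  · simp [tp, h]
  · simp [h]

theorem YY_tp (k : Fin 3) (i : ℕ) {j : ℕ} (hi : i < R.n k) (hj : j < R.n k) :
    R.YY (tp R k i) k j = 0 :=
  Finset.prod_eq_zero (Finset.mem_univ (Fin.last (R.n k))) (by simp [hj, tp, hi])

theorem XX_tp' (k : Fin 3) {i j : ℕ} (hij : i < j) (hj : j < R.n k) :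
    R.XX (tp R k i) k j = 0 := by
  refine Finset.prod_eq_zero (Finset.mem_univ (⟨j, by omega⟩ : Fin (R.n k + 1))) ?_
  have : ¬ (j ≤ i) := by omega
  simp [tp, this]

theorem pos_tp {i j : L} {k : Fin 3} (hi : R.pl i = Sum.inl k) (hj : R.pl j = Sum.inl k)
    (hij : R.rk i < R.rk j) : R.pos (tp R k (R.rk i)) i = ctr k + 1 / 2 ∧
      R.pos (tp R k (R.rk i)) j = ctr k := by
  have h1 := rk_lt_n R hi
  have h2 := rk_lt_n R hj
  rw [pos_neck R hi, pos_neck R hj, XX_tp, YY_tp R k _ h1 h1, XX_tp' R k hij h2, YY_tp R k _ h1 h2]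
  constructor <;> ring

theorem neck_false {S : L → Bool} (hS : ∀ j, S j = true → (R.pl j).isRight = true) {j : L}
    {k : Fin 3} (h : R.pl j = Sum.inl k) : S j = false := by
  by_contra hc
  have := hS j (by simpa using hc)
  rw [h] at this
  simp at this

theorem ctr_ne (k : Fin 3) : ctr k ≠ 0 := by
  fin_cases k <;> norm_num [ctr]

/-- No condition is empty. -/
theorem exists_gf_ne {S : L → Bool} (hS : ∀ j, S j = true → (R.pl j).isRight = true)
    (i : GIx R) : ∃ p, gf R S i p ≠ 0 := by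
  rcases i with g | A | j | j | ⟨i, j⟩
  · exact ⟨(1, 0), one_ne_zero⟩
  · refine ⟨(0, 0), ?_⟩
    obtain ⟨g, hg⟩ := A.2
    have h1 : ∏ g ∈ A.1, (0 : R.Gap → ℂ) g = 0 := Finset.prod_eq_zero hg rfl
    change ∏ g ∈ A.1, (0 : R.Gap → ℂ) g - 1 ≠ 0
    rw [h1, zero_sub]
    exact neg_ne_zero.2 one_ne_zero
  · rcases h : R.pl j with k | s
    · refine ⟨(0, 0), ?_⟩
      change R.pos _ j ≠ 0
      rw [pos_zero R h]
      exact ctr_ne k
    · refine ⟨(0, 1), ?_⟩
      change R.pos _ j ≠ 0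
      rw [pos_core R h]
      exact one_ne_zero
  · rcases h : R.pl j with k | s
    · refine ⟨tp R k (R.rk j), ?_⟩
      change gfX R j _ ≠ 0
      rw [gfX, h]
      change R.XX _ k _ - R.YY _ k _ ≠ 0
      rw [XX_tp, YY_tp R k _ (rk_lt_n R h) (rk_lt_n R h), sub_zero]
      exact one_ne_zero
    · refine ⟨0, ?_⟩
      change gfX R j _ ≠ 0
      rw [gfX, h]
      exact one_ne_zero
  · change ∃ p, gfP R S i j p ≠ 0
    unfold gfP
    by_cases hij : i = j
    · exact ⟨0, by simp [hij]⟩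
    simp only [if_neg hij]
    rcases hi : R.pl i with k | s <;> rcases hj : R.pl j with l | t
    · rw [neck_false R hS hi, neck_false R hS hj]
      simp only [if_true]
      by_cases hkl : k = l
      · subst hkl
        rcases lt_trichotomy (R.rk i) (R.rk j) with h | h | h
        · refine ⟨tp R k (R.rk i), ?_⟩
          obtain ⟨h1, h2⟩ := pos_tp R hi hj h
          rw [h1, h2]
          norm_num
        · exact absurd (R.rk_inj i j k hi hj h) hij
        · refine ⟨tp R k (R.rk j), ?_⟩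
          obtain ⟨h1, h2⟩ := pos_tp R hj hi h
          rw [h1, h2]
          norm_num
      · refine ⟨(0, 0), ?_⟩
        rw [pos_zero R hi, pos_zero R hj]
        exact sub_ne_zero.2 (ctr_inj.ne hkl)
    · rw [neck_false R hS hi]
      rcases hSj : S j with _ | _
      · refine ⟨(0, fun _ => ctr k + 1), ?_⟩
        rw [if_pos rfl, pos_zero R hi, pos_core R hj]
        norm_num
      · refine ⟨(0, 0), ?_⟩
        rw [if_neg (by simp), pos_core R hj]
        simp
    · rw [neck_false R hS hj]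
      rcases hSi : S i with _ | _
      · refine ⟨(0, fun _ => ctr l + 1), ?_⟩
        rw [if_pos rfl, pos_zero R hj, pos_core R hi]
        norm_num
      · refine ⟨(0, 0), ?_⟩
        rw [if_neg (by simp), pos_core R hi]
        simp
    · by_cases hSij : S i = S j
      · classical
        refine ⟨(0, Pi.single ⟨i, by simp [hi]⟩ 1), ?_⟩
        rw [if_pos hSij, pos_core R hi, pos_core R hj]
        have h1 : (⟨j, by simp [hj]⟩ : R.Cm) ≠ ⟨i, by simp [hi]⟩ := fun h =>
          hij (congrArg Subtype.val h).symm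
        simp only [Pi.single_eq_same, Pi.single_eq_of_ne h1]
        norm_num
      · refine ⟨(0, 0), ?_⟩
        rw [if_neg hSij, pos_core R hj]
        simp

/-- **The generic points are open and dense** in every open set. -/
theorem dense_gen {S : L → Bool} (hS : ∀ j, S j = true → (R.pl j).isRight = true) {W : Set R.Sp}
    (hW : IsOpen W) : IsOpen (W ∩ Gen R S) ∧ W ⊆ closure (W ∩ Gen R S) :=
  entire_std (𝕜 := ℂ) (P := gf R S) hW (fun i p _ => an_gf R S i p) fun i => exists_gf_ne R hS i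

/-! ### Properties of the generic points -/

theorem gen_gap {S : L → Bool} {p : R.Sp} (hp : p ∈ Gen R S) (g : R.Gap) : p.1 g ≠ 0 := hp (.inl g)

theorem gen_prod {S : L → Bool} {p : R.Sp} (hp : p ∈ Gen R S) {A : Finset R.Gap}
    (hA : A.Nonempty) : ∏ g ∈ A, p.1 g ≠ 1 := sub_ne_zero.1 (hp (.inr (.inl ⟨A, hA⟩)))

theorem gen_pos {S : L → Bool} {p : R.Sp} (hp : p ∈ Gen R S) (j : L) : R.pos p j ≠ 0 :=
  hp (.inr (.inr (.inl j)))

theorem gen_XY {S : L → Bool} {p : R.Sp} (hp : p ∈ Gen R S) {j : L} {k : Fin 3}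
    (h : R.pl j = Sum.inl k) : R.XX p k (R.rk j) ≠ R.YY p k (R.rk j) := by
  have h1 : gfX R j p ≠ 0 := hp (.inr (.inr (.inr (.inl j))))
  rw [gfX, h] at h1
  exact sub_ne_zero.1 h1

theorem gen_ne {S : L → Bool} {p : R.Sp} (hp : p ∈ Gen R S) {i j : L} (hij : i ≠ j)
    (hSij : S i = S j) : R.pos p i ≠ R.pos p j := by
  have h1 : gfP R S i j p ≠ 0 := hp (.inr (.inr (.inr (.inr (i, j)))))
  rw [gfP, if_neg hij, if_pos hSij] at h1
  exact sub_ne_zero.1 h1

theorem gen_mul_ne {S : L → Bool} {p : R.Sp} (hp : p ∈ Gen R S) {i j : L} (hSij : S i ≠ S j) :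
    R.pos p i * R.pos p j ≠ 1 := by
  have hij : i ≠ j := fun h => hSij (h ▸ rfl)
  have h1 : gfP R S i j p ≠ 0 := hp (.inr (.inr (.inr (.inr (i, j)))))
  rw [gfP, if_neg hij, if_neg hSij] at h1
  exact sub_ne_zero.1 h1

theorem gen_eps {S : L → Bool} {p : R.Sp} (hp : p ∈ Gen R S) (k : Fin 3) : R.eps p k ≠ 0 :=
  Finset.prod_ne_zero_iff.2 fun _ _ => gen_gap R hp _

/-- At generic points all marks are distinct. -/
theorem gen_notSame {S : L → Bool} {p : R.Sp} (hp : p ∈ Gen R S) {i j : L} (hij : i ≠ j)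
    (v w : ℂ) : ¬ Same (S i) (R.pos p i) v (S j) (R.pos p j) w := by
  unfold Same
  split_ifs with h
  · exact fun h1 => gen_ne R hp hij h h1.1
  · exact fun h1 => gen_mul_ne R hp h h1.1

theorem gen_sht {S : L → Bool} {p : R.Sp} (hp : p ∈ Gen R S) (h1 : p ∈ D1 R S) (j : L) :
    R.sht S p j ≠ 0 := by
  rcases h : R.pl j with k | s
  · exact (sht_neck_ne R h1 h).2 (gen_XY R hp h)
  · exact sht_core_ne R h1 h

theorem gen_isStd {S : L → Bool} {p : R.Sp} (hp : p ∈ Gen R S) (h1 : p ∈ D1 R S) :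
    R.isStd S p := ⟨fun _ _ _ => gen_gap R hp _, gen_sht R hp h1⟩

/-- The points of the curve. -/
theorem onC {S : L → Bool} (hS : ∀ j, S j = true → (R.pl j).isRight = true) {p : R.Sp}
    (h1 : p ∈ D1 R S) (h2 : R.isStd S p) : OnC S (R.psi p).1 (R.psi p).2 (R.sht S p) :=
  fun j => ⟨sht_sq R hS j h1, h2.2 j⟩

theorem psi_mem_K6 {S : L → Bool} {p : R.Sp} (h1 : p ∈ D1 R S) : (R.psi p).1 ∈ K6 :=
  thA_mem_K6 h1.1

/-- The generic points in the open set `W` inside the domain are dense in `W`. -/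
theorem dense_dist {S : L → Bool} (hS : ∀ j, S j = true → (R.pl j).isRight = true) :
    R.dom S ⊆ closure {p | p ∈ R.dom S ∧ R.isStd S p ∧
      OnC S (R.psi p).1 (R.psi p).2 (R.sht S p) ∧
      ∀ i j : L, i ≠ j → ¬ Same (S i) ((R.psi p).2 i) (R.sht S p i) (S j) ((R.psi p).2 j)
        (R.sht S p j)} := by
  refine (dense_gen R hS (isOpen_dom R S)).2.trans (closure_mono ?_)
  rintro p ⟨hp, hg⟩
  have h1 := dom_subset R S hp
  have h2 := gen_isStd R hg h1
  exact ⟨hp, h2, onC R hS h1 h2, fun i j hij => gen_notSame R hg hij _ _⟩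

/-! ### Same type marks are distinct -/

theorem XX_mul (p : R.Sp) (k : Fin 3) {i j : ℕ} (hij : i ≤ j) :
    R.XX p k j = R.XX p k i *
      ∏ g : Fin (R.n k + 1), (if i < (g : ℕ) ∧ (g : ℕ) ≤ j then p.1 ⟨k, g⟩ else 1) := by
  simp only [Region.XX, ← Finset.prod_mul_distrib]
  refine Finset.prod_congr rfl fun g _ => ?_
  by_cases h : (g : ℕ) ≤ i
  · rw [if_pos (h.trans hij), if_pos h, if_neg (by omega), mul_one]
  · by_cases h' : (g : ℕ) ≤ j
    · rw [if_pos h', if_neg h, if_pos ⟨by omega, h'⟩, one_mul]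
    · rw [if_neg h', if_neg h, if_neg (by omega), one_mul]

/-- Two marks of one open neck that are equal have the product of the gaps between them one. -/
theorem prod_eq_one_of_same {S : L → Bool} (hS : ∀ j, S j = true → (R.pl j).isRight = true)
    {p : R.Sp} (hp : p ∈ D1 R S) {i j : L} {k : Fin 3} (hi : R.pl i = Sum.inl k)
    (hj : R.pl j = Sum.inl k) (hij : R.rk i < R.rk j) (h0 : ∀ g, p.1 ⟨k, g⟩ ≠ 0)
    (h : Same (S i) (R.pos p i) (R.sht S p i) (S j) (R.pos p j) (R.sht S p j)) :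
    ∏ g : Fin (R.n k + 1), (if R.rk i < (g : ℕ) ∧ (g : ℕ) ≤ R.rk j then p.1 ⟨k, g⟩ else 1) = 1 := by
  rw [neck_false R hS hi, neck_false R hS hj, Same, if_pos rfl] at h
  obtain ⟨h1, h2⟩ := h
  have h3 := gk_ne R hp hj
  rw [sht_neck R S hi, sht_neck R S hj, h1] at h2
  have h4 : R.XX p k (R.rk i) - R.YY p k (R.rk i) = R.XX p k (R.rk j) - R.YY p k (R.rk j) := by
    apply mul_left_cancel₀ h3
    linear_combination 2 * h2
  rw [pos_neck R hi, pos_neck R hj] at h1
  have h5 : R.XX p k (R.rk i) = R.XX p k (R.rk j) := by linear_combination h1 + h4 / 2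
  have h6 : R.XX p k (R.rk i) ≠ 0 := by
    refine Finset.prod_ne_zero_iff.2 fun g _ => ?_
    split_ifs
    · exact h0 g
    · exact one_ne_zero
  have h7 := XX_mul R p k hij.le
  rw [← h5] at h7
  exact mul_left_cancel₀ h6 (by rw [mul_one]; exact h7.symm)

/-- **Same type marks are distinct** at the standard points of the domain. -/
theorem sep {S : L → Bool} (hS : ∀ j, S j = true → (R.pl j).isRight = true) {p : R.Sp}
    (hp : p ∈ R.dom S) (hs : R.isStd S p) : Sep S (R.psi p).2 (R.sht S p) := by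
  have h1 := dom_subset R S hp
  intro i j hij ht h
  by_cases hk : ∃ k, R.pl i = Sum.inl k ∧ R.pl j = Sum.inl k
  · obtain ⟨k, hi, hj⟩ := hk
    have hn : R.n k ≠ 0 := by
      have := rk_lt_n R hi
      omega
    rcases lt_trichotomy (R.rk i) (R.rk j) with hr | hr | hr
    · exact hp.2.2.2.2 i j k hi hj ht hr (prod_eq_one_of_same R hS h1 hi hj hr (hs.1 k hn) h)
    · exact hij (R.rk_inj i j k hi hj hr)
    · refine hp.2.2.2.2 j i k hj hi ht.symm hr
        (prod_eq_one_of_same R hS h1 hj hi hr (hs.1 k hn) ?_)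
      have e1 := neck_false R hS hi
      have e2 := neck_false R hS hj
      rw [e1, e2, Same, if_pos rfl] at h ⊢
      exact ⟨h.1.symm, h.2.symm⟩
  · exact hp.2.2.2.1 i j hij ht (fun k hk' => hk ⟨k, hk'⟩) h

end Vale.Agent.P273.H375

end
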