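import Vale.Agent.P273.H375.Den
import Vale.Agent.P273.H883.Open1

/-!
Generic points of the one-node regions (H95/Wall, Region1) are dense, along the sheets.
-/

noncomputable section

namespace Vale.Agent.P273.H375

open Set Filter H95
open scoped Topology

namespace One

variable (R : Region1)

/-- The index set of the conditions for generic points. -/
abbrev GIx : Type :=
  Fin (R.n + 1) ⊕ {A : Finset (Fin (R.n + 1)) // A.Nonempty} ⊕ L ⊕ L ⊕ (L × L)

/-- The condition `X ≠ Y` for a neck mark. -/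
def gfX (j : L) (p : R.Sp) : ℂ := if R.nk j then R.XX p (R.rk j) - R.YY p (R.rk j) else 1

/-- The condition that two marks are distinct. -/
def gfP (S : L → Bool) (i j : L) (p : R.Sp) : ℂ :=
  if i = j then 1 else if S i = S j then R.pos p i - R.pos p j else R.pos p i * R.pos p j - 1

/-- The polynomials of the conditions for generic points. -/
def gf (S : L → Bool) : GIx R → R.Sp → ℂ
  | .inl g => fun p => p.1 g
  | .inr (.inl A) => fun p => ∏ g ∈ A.1, p.1 g - 1
  | .inr (.inr (.inl j)) => fun p => R.pos p j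
  | .inr (.inr (.inr (.inl j))) => gfX R j
  | .inr (.inr (.inr (.inr q))) => gfP R S q.1 q.2

/-- The generic points. -/
def Gen (S : L → Bool) : Set R.Sp := {p | ∀ i, gf R S i p ≠ 0}

theorem an_gf (S : L → Bool) (i : GIx R) (p : R.Sp) : AnalyticAt ℂ (gf R S i) p := by
  rcases i with g | A | j | j | q
  · exact H883.an_gap g
  · exact (Finset.analyticAt_fun_prod _ fun g _ => H883.an_gap g).sub analyticAt_const
  · exact H883.an_pos j
  · change AnalyticAt ℂ (gfX R j) p
    unfold gfX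
    split_ifs
    · exact (H883.an_XX _).sub (H883.an_YY _)
    · exact analyticAt_const
  · change AnalyticAt ℂ (gfP R S q.1 q.2) p
    unfold gfP
    split_ifs
    · exact analyticAt_const
    · exact (H883.an_pos _).sub (H883.an_pos _)
    · exact ((H883.an_pos _).mul (H883.an_pos _)).sub analyticAt_const

theorem XX_zero (s : R.Cm ⊕ Fin 5 → ℂ) (i : ℕ) : R.XX ((0 : Fin (R.n + 1) → ℂ), s) i = 0 :=
  Finset.prod_eq_zero (Finset.mem_univ (0 : Fin (R.n + 1))) (by simp)

theorem YY_zero (s : R.Cm ⊕ Fin 5 → ℂ) {i : ℕ} (hi : i < R.n) :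
    R.YY ((0 : Fin (R.n + 1) → ℂ), s) i = 0 :=
  Finset.prod_eq_zero (Finset.mem_univ (Fin.last R.n)) (by simp [hi])

theorem rk_lt_n {j : L} (h : R.nk j = true) : R.rk j < R.n := R.rk_lt j h

theorem pos_zero {j : L} (h : R.nk j = true) (s : R.Cm ⊕ Fin 5 → ℂ) :
    R.pos ((0 : Fin (R.n + 1) → ℂ), s) j = s (Sum.inr 0) := by
  rw [H883.pos_neck h, XX_zero, YY_zero R s (rk_lt_n R h)]
  change s (Sum.inr 0) + _ = _
  ring

/-- Test point: the gaps up to `i` are one, the others zero. -/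
def tp (i : ℕ) : R.Sp := (fun g => if (g : ℕ) ≤ i then 1 else 0, 0)

theorem XX_tp (i : ℕ) : R.XX (tp R i) i = 1 := by
  refine Finset.prod_eq_one fun g _ => ?_
  by_cases h : (g : ℕ) ≤ i
  · simp [tp, h]
  · simp [h]

theorem YY_tp (i : ℕ) {j : ℕ} (hi : i < R.n) (hj : j < R.n) : R.YY (tp R i) j = 0 :=
  Finset.prod_eq_zero (Finset.mem_univ (Fin.last R.n)) (by simp [hj, tp, hi])

theorem XX_tp' {i j : ℕ} (hij : i < j) (hj : j < R.n) : R.XX (tp R i) j = 0 := by
  refine Finset.prod_eq_zero (Finset.mem_univ (⟨j, by omega⟩ : Fin (R.n + 1))) ?_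
  have : ¬ (j ≤ i) := by omega
  simp [tp, this]

theorem ctr_tp (i : ℕ) : R.ctr (tp R i) = 0 := rfl

theorem pos_tp {i j : L} (hi : R.nk i = true) (hj : R.nk j = true) (hij : R.rk i < R.rk j) :
    R.pos (tp R (R.rk i)) i = 1 / 2 ∧ R.pos (tp R (R.rk i)) j = 0 := by
  have h1 := rk_lt_n R hi
  have h2 := rk_lt_n R hj
  rw [H883.pos_neck hi, H883.pos_neck hj, XX_tp, YY_tp R _ h1 h1, XX_tp' R hij h2,
    YY_tp R _ h1 h2, ctr_tp]
  constructor <;> ring

theorem neck_false {S : L → Bool} (hS : ∀ j, S j = true → R.nk j = false) {j : L}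
    (h : R.nk j = true) : S j = false := by
  by_contra hc
  have := hS j (by simpa using hc)
  rw [h] at this
  simp at this

/-- No condition is empty. -/
theorem exists_gf_ne {S : L → Bool} (hS : ∀ j, S j = true → R.nk j = false)
    (i : GIx R) : ∃ p, gf R S i p ≠ 0 := by
  rcases i with g | A | j | j | ⟨i, j⟩
  · exact ⟨(1, 0), one_ne_zero⟩
  · refine ⟨(0, 0), ?_⟩
    obtain ⟨g, hg⟩ := A.2
    have h1 : ∏ g ∈ A.1, (0 : Fin (R.n + 1) → ℂ) g = 0 := Finset.prod_eq_zero hg rfl
    change ∏ g ∈ A.1, (0 : Fin (R.n + 1) → ℂ) g - 1 ≠ 0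
    rw [h1, zero_sub]
    exact neg_ne_zero.2 one_ne_zero
  · refine ⟨(0, 1), ?_⟩
    change R.pos _ j ≠ 0
    rcases h : R.nk j with _ | _
    · rw [H883.pos_core h]
      exact one_ne_zero
    · rw [pos_zero R h]
      exact one_ne_zero
  · rcases h : R.nk j with _ | _
    · refine ⟨0, ?_⟩
      change gfX R j _ ≠ 0
      rw [gfX, h, if_neg (by simp)]
      exact one_ne_zero
    · refine ⟨tp R (R.rk j), ?_⟩
      change gfX R j _ ≠ 0
      rw [gfX, h, if_pos rfl, XX_tp, YY_tp R _ (rk_lt_n R h) (rk_lt_n R h), sub_zero]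
      exact one_ne_zero
  · change ∃ p, gfP R S i j p ≠ 0
    unfold gfP
    by_cases hij : i = j
    · exact ⟨0, by simp [hij]⟩
    simp only [if_neg hij]
    rcases hi : R.nk i with _ | _ <;> rcases hj : R.nk j with _ | _
    · by_cases hSij : S i = S j
      · classical
        refine ⟨(0, Pi.single (Sum.inl ⟨i, hi⟩) 1), ?_⟩
        rw [if_pos hSij, H883.pos_core hi, H883.pos_core hj]
        have h1 : (Sum.inl ⟨j, hj⟩ : R.Cm ⊕ Fin 5) ≠ Sum.inl ⟨i, hi⟩ := fun h =>
          hij (congrArg Subtype.val (Sum.inl.inj h)).symm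
        simp only [Pi.single_eq_same, Pi.single_eq_of_ne h1]
        norm_num
      · refine ⟨(0, 0), ?_⟩
        rw [if_neg hSij, H883.pos_core hj]
        simp
    · rw [neck_false R hS hj]
      rcases hSi : S i with _ | _
      · refine ⟨(0, Sum.elim (fun _ => 1) 0), ?_⟩
        rw [if_pos rfl, pos_zero R hj, H883.pos_core hi]
        simp
      · refine ⟨(0, 0), ?_⟩
        rw [if_neg (by simp), H883.pos_core hi]
        simp
    · rw [neck_false R hS hi]
      rcases hSj : S j with _ | _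
      · refine ⟨(0, Sum.elim (fun _ => 1) 0), ?_⟩
        rw [if_pos rfl, pos_zero R hi, H883.pos_core hj]
        simp
      · refine ⟨(0, 0), ?_⟩
        rw [if_neg (by simp), H883.pos_core hj]
        simp
    · rw [neck_false R hS hi, neck_false R hS hj]
      simp only [if_true]
      rcases lt_trichotomy (R.rk i) (R.rk j) with h | h | h
      · refine ⟨tp R (R.rk i), ?_⟩
        obtain ⟨h1, h2⟩ := pos_tp R hi hj h
        rw [h1, h2]
        norm_num
      · exact absurd (R.rk_inj i j hi hj h) hij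
      · refine ⟨tp R (R.rk j), ?_⟩
        obtain ⟨h1, h2⟩ := pos_tp R hj hi h
        rw [h1, h2]
        norm_num

/-- **The generic points are open and dense** in every open set. -/
theorem dense_gen {S : L → Bool} (hS : ∀ j, S j = true → R.nk j = false) {W : Set R.Sp}
    (hW : IsOpen W) : IsOpen (W ∩ Gen R S) ∧ W ⊆ closure (W ∩ Gen R S) :=
  entire_std (𝕜 := ℂ) (P := gf R S) hW (fun i p _ => an_gf R S i p) fun i => exists_gf_ne R hS i

variable {R} {S : L → Bool} {p p0 : R.Sp} {g g0 : ℂ} {v v0 : L → ℂ}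

theorem gen_gap (hp : p ∈ Gen R S) (g : Fin (R.n + 1)) : p.1 g ≠ 0 := hp (.inl g)

theorem gen_pos (hp : p ∈ Gen R S) (j : L) : R.pos p j ≠ 0 := hp (.inr (.inr (.inl j)))

theorem gen_XY (hp : p ∈ Gen R S) {j : L} (h : R.nk j = true) :
    R.XX p (R.rk j) ≠ R.YY p (R.rk j) := by
  have h1 : gfX R j p ≠ 0 := hp (.inr (.inr (.inr (.inl j))))
  rw [gfX, h, if_pos rfl] at h1
  exact sub_ne_zero.1 h1

theorem gen_ne (hp : p ∈ Gen R S) {i j : L} (hij : i ≠ j) (hSij : S i = S j) :
    R.pos p i ≠ R.pos p j := by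
  have h1 : gfP R S i j p ≠ 0 := hp (.inr (.inr (.inr (.inr (i, j)))))
  rw [gfP, if_neg hij, if_pos hSij] at h1
  exact sub_ne_zero.1 h1

theorem gen_mul_ne (hp : p ∈ Gen R S) {i j : L} (hSij : S i ≠ S j) :
    R.pos p i * R.pos p j ≠ 1 := by
  have hij : i ≠ j := fun h => hSij (h ▸ rfl)
  have h1 : gfP R S i j p ≠ 0 := hp (.inr (.inr (.inr (.inr (i, j)))))
  rw [gfP, if_neg hij, if_neg hSij] at h1
  exact sub_ne_zero.1 h1

theorem gen_eps (hp : p ∈ Gen R S) : R.eps p ≠ 0 :=
  Finset.prod_ne_zero_iff.2 fun _ _ => gen_gap hp _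

/-- At generic points all marks are distinct. -/
theorem gen_notSame (hp : p ∈ Gen R S) {i j : L} (hij : i ≠ j) (u w : ℂ) :
    ¬ Same (S i) (R.pos p i) u (S j) (R.pos p j) w := by
  unfold Same
  split_ifs with h
  · exact fun h1 => gen_ne hp hij h h1.1
  · exact fun h1 => gen_mul_ne hp h h1.1

theorem gen_isStd (hp : p ∈ Gen R S) (h : R.ok S p g v) : R.isStd p g v := by
  refine ⟨fun _ => gen_gap hp, fun j => ?_⟩
  rcases hj : R.nk j with _ | _
  · rw [H883.sht_core hj]
    exact (H883.ok_core h hj).1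
  · rw [H883.sht_neck hj]
    exact div_ne_zero (mul_ne_zero (mul_ne_zero
      (H883.sheet_ne (H883.ok_sheet h) (H883.ok_ctr h))
      (H883.nf_ne hj (H883.ok_neck h hj))) (sub_ne_zero.2 (gen_XY hp hj))) two_ne_zero

/-- **Density of the generic points along the sheets** near an admissible point. -/
theorem dense1 (hS : ∀ j, S j = true → R.nk j = false) (h : R.ok S p0 g0 v0) {r : ℝ}
    (hr : 0 < r) : ∃ q g v, ‖q - p0‖ < r ∧ ‖g - g0‖ < r ∧ ‖v - v0‖ < r ∧ R.ok S q g v ∧
      R.isStd q g v ∧ (∀ i j : L, i ≠ j →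
        ¬ Same (S i) (R.pos q i) (R.sht q g v i) (S j) (R.pos q j) (R.sht q g v j)) ∧
      q ∈ Gen R S := by
  classical
  have h1 := H883.ok_branch h
  have h2 : ∀ᶠ q in 𝓝 p0, ‖H883.gb R p0 g0 q - g0‖ < r := by
    have hc : ContinuousAt (fun p => ‖H883.gb R p0 g0 p - g0‖) p0 :=
      ((H883.an_gb (H883.ok_ctr h) g0).continuousAt.sub continuousAt_const).norm
    refine hc.eventually_lt continuousAt_const ?_
    rw [H883.gb_self (H883.ok_ctr h), sub_self, norm_zero]
    exact hr
  have h3 : ∀ᶠ q in 𝓝 p0, ∀ j : {j : L // R.nk j = false},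
      ‖H883.vb R S p0 v0 q j.1 - v0 j.1‖ < r := by
    rw [eventually_all]
    intro j
    have hv := (H883.ok_sheet h).2 j.1 j.2
    have h0 := (H883.ok_core h j.2).1
    have hc : ContinuousAt (fun p => ‖H883.vb R S p0 v0 p j.1 - v0 j.1‖) p0 :=
      ((H883.an_vb hv h0).continuousAt.sub continuousAt_const).norm
    refine hc.eventually_lt continuousAt_const ?_
    rw [H883.vb_self hv h0, sub_self, norm_zero]
    exact hr
  have h4 : ∀ᶠ q in 𝓝 p0, ‖q - p0‖ < r := by
    have hc : ContinuousAt (fun q : R.Sp => ‖q - p0‖) p0 :=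
      (continuousAt_id.sub continuousAt_const).norm
    refine hc.eventually_lt continuousAt_const ?_
    rw [sub_self, norm_zero]
    exact hr
  obtain ⟨N, hN, hNo, hpN⟩ := mem_nhds_iff.1 (h1.and (h2.and (h3.and h4)))
  obtain ⟨q, hqN, hqG⟩ : (N ∩ Gen R S).Nonempty := by
    have := (dense_gen R hS hNo).2 hpN
    rw [mem_closure_iff_nhds] at this
    obtain ⟨q, -, hq⟩ := this univ univ_mem
    exact ⟨q, hq⟩
  obtain ⟨k1, k2, k3, k4⟩ := hN hqN
  set v : L → ℂ := fun j => if R.nk j then v0 j else H883.vb R S p0 v0 q j with hv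
  have hok : R.ok S q (H883.gb R p0 g0 q) v := by
    refine H883.ok_congr (fun j hj => ?_) k1
    simp [hv, hj]
  refine ⟨q, H883.gb R p0 g0 q, v, k4, k2, ?_, hok, gen_isStd hqG hok,
    fun i j hij => gen_notSame hqG hij _ _, hqG⟩
  rw [pi_norm_lt_iff hr]
  intro j
  rcases hj : R.nk j with _ | _
  · simpa [hv, hj] using k3 ⟨j, hj⟩
  · simpa [hv, hj] using hr

end One

end Vale.Agent.P273.H375

end
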